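import Crest.Agent.N255.Gs.Pa
import Crest.Agent.N255.Tp.ProMv

/-!
# Row 255 (helper89): pro-acyclic systems of open sets of the manifold from the cells
-/

set_option autoImplicit false
open Set Finsupp
open scoped Pointwise

noncomputable section

namespace Crest.Agent.N255.Fa

open Gc Gs Ce Ch Tp Uc

variable {G C : Type} [Group G] [MulAction G C] {U : UG G C} {or : C → ℤ}
  {T : Type} [TopologicalSpace T] [MulAction G T] [ContinuousConstSMul G T] {K₀ : Set T}
  {κ J : Type} [Preorder κ]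

/-- a system of subsets of the group which retreats from its bounded neighbourhoods -/
structure Rtr (A : J → κ → Set G) : Prop where
  anti : ∀ j, Antitone (A j)
  nb : ∀ S : Set G, S.Finite → ∀ a, ∃ b, a ≤ b ∧ ∀ j, A j b * S ⊆ A j a

/-- the open set over a set of labels -/
def Op (K₀ : Set T) (A : Set G) : Set T := sat A (interior K₀)

theorem isOpen_Op (A : Set G) : IsOpen (Op K₀ A) := isOpen_sat A isOpen_interior

omit [ContinuousConstSMul G T] in
theorem Op_mono {A B : Set G} (h : A ⊆ B) : Op K₀ A ⊆ Op K₀ B := sat_mono h Subset.rfl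

omit [ContinuousConstSMul G T] in
theorem Op_sub (A : Set G) : Op K₀ A ⊆ sat A K₀ := sat_mono Subset.rfl interior_subset

theorem Rtr.oSys {A : J → κ → Set G} (r : Rtr A) : OSys fun j a => Op K₀ (A j a) :=
  ⟨fun _ _ => isOpen_Op _, fun j _ _ h => Op_mono (r.anti j h)⟩

variable {d : ℕ} (h : FD d G K₀)
include h

omit [ContinuousConstSMul G T] in
theorem sat_sub_Op {L : Set T} (A : Set G) : sat A L ⊆ Op K₀ (A * shs G K₀ L) := fun x hx => by
  obtain ⟨g, hg⟩ := h.cov x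
  exact ⟨g, sat_sub_cor K₀ L A hx g (interior_subset hg), hg⟩

omit [ContinuousConstSMul G T] in
theorem Op_nonempty {A : Set G} (hA : A.Nonempty) : (Op K₀ A).Nonempty := by
  obtain ⟨a, ha⟩ := hA
  obtain ⟨x⟩ := h.gm.pc.nonempty
  obtain ⟨g, hg⟩ := h.cov x
  exact ⟨_, smul_mem_sat ha hg⟩

omit [ContinuousConstSMul G T] in
/-- translates of any compact set give an interleaved system -/
theorem Rtr.sat_sub {A : J → κ → Set G} (r : Rtr A) {L : Set T} (hL : IsCompact L) (a : κ) :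
    ∃ b, a ≤ b ∧ ∀ j, sat (A j b) L ⊆ Op K₀ (A j a) := by
  obtain ⟨b, h1, h2⟩ := r.nb _ (h.gm.shs_finite h.cpt hL) a
  exact ⟨b, h1, fun j => (sat_sub_Op h _).trans (Op_mono (h2 j))⟩

end Crest.Agent.N255.Fa

namespace Crest.Agent.N255.Fa

open Gc Gs Ce Ch Tp Uc

variable {G C : Type} [Group G] [MulAction G C] {U : UG G C} {or : C → ℤ}
  {T : Type} [TopologicalSpace T] [MulAction G T] [ContinuousConstSMul G T] {K₀ : Set T}
  {κ J : Type} [Preorder κ]

/-- a pro-system of sets of cells with the compactly supported cohomology of Euclidean space -/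
structure PQd (U : UG G C) (or : C → ℤ) (B : J → κ → Set C) : Prop where
  anti : ∀ j, Antitone (B j)
  cl : ∀ j a, Cl U.de (Sp (B j a))
  pe : ∀ a, ∃ b, a ≤ b ∧ ∀ j, PEx U or (B j b) (B j a)
  top : ∀ j a, ∃ x ∈ B j a, or x = 1 ∨ or x = -1

theorem PQd.tw4 {B : J → κ → Set C} (p : PQd U or B) (a : κ) : ∃ s : ℕ → κ, s 0 = a ∧ Monotone s ∧
    ∀ j, Tw4 U or fun i => B j (s i) := by
  choose f h1 h2 using p.pe
  have m : Monotone fun i => f^[i] a := monotone_nat_of_le_succ fun i => by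
    rw [Function.iterate_succ_apply']; exact h1 _
  exact ⟨fun i => f^[i] a, rfl, m, fun j => ⟨fun _ _ h => p.anti j (m h), fun i _ => by
    simp only [Function.iterate_succ_apply']; exact h2 _ j, p.cl j _, p.top j _⟩⟩

/-- **transfer of pro-acyclic systems** -/
theorem pac_of_pqd [IsDirectedOrder κ] (q : Qd U or univ) (h : FD 4 G K₀) (L : Lab G U.X)
    (k : Type) [Field k] {A : J → κ → Set G} {B : J → κ → Set C} (r : Rtr A) (p : PQd U or B)
    (i1 : ∀ a, ∃ b, ∀ j n (x : U.X n), L.l n x ∈ A j b → x.1 ∈ B j a)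
    (i2 : ∀ a, ∃ b, ∀ j n (x : U.X n), x.1 ∈ B j b → L.l n x ∈ A j a) :
    PAc k fun j a => Op K₀ (A j a) := by
  obtain ⟨S, f1, -, h3⟩ := acy_of_pex q h L k
  refine ⟨fun j a => ?_, fun a => ?_⟩
  · obtain ⟨b, hb⟩ := i2 a
    obtain ⟨x, hx, -⟩ := p.top j b
    exact Op_nonempty h ⟨_, hb j _ ⟨x, rfl⟩ hx⟩
  · obtain ⟨a0, l0, e0⟩ := r.sat_sub h h.cpt a
    obtain ⟨a1, l1, e1⟩ := r.nb S f1 a0
    obtain ⟨b0, e2⟩ := i2 a1
    obtain ⟨s, rfl, -, e3⟩ := p.tw4 b0
    obtain ⟨b1, e4⟩ := i1 (s 4)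
    obtain ⟨b2, l2, l3⟩ := exists_ge_ge a1 b1
    obtain ⟨b3, l4, e5⟩ := r.nb S f1 b2
    refine ⟨b3, l0.trans (l1.trans (l2.trans l4)), fun j => h3 _ (e3 j) (A j b3) (A j a1)
      (fun n x hx => e4 j n x (r.anti j l3 (e5 j hx))) (e2 j) _ _ (isOpen_Op _) (Op_sub _)
      (isOpen_Op _) ((sat_mono ?_ Subset.rfl).trans (e0 j))⟩
    rw [union_eq_self_of_subset_left (r.anti j (l2.trans l4))]
    exact e1 j

end Crest.Agent.N255.Fa

end
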