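import Crest.Agent.N255.Gs.Cx
import Crest.Agent.N255.Gc.Defs

/-!
# Row 255, block D (helper58): the cellular complex over a field as a complex with shadows
-/

set_option autoImplicit false
open Set Finsupp
open scoped Pointwise

noncomputable section

namespace Crest.Agent.N255.Gs

open Crest.Agent.N255.Gc

variable {G : Type} [Group G]

section bc
variable (k : Type) [CommRing k] {A B C : Type}

/-- reduction of the coefficients -/
def rd : (A →₀ ℤ) →+ (A →₀ k) := mapRange.addMonoidHom (Int.castAddHom k)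

theorem rd_apply (c : A →₀ ℤ) (a : A) : rd k c a = (c a : k) := by simp [rd]

theorem rd_single (a : A) (r : ℤ) : rd k (single a r) = single a (r : k) := by simp [rd]

/-- base change -/
def bc (F : (A →₀ ℤ) →ₗ[ℤ] (B →₀ ℤ)) : (A →₀ k) →ₗ[k] (B →₀ k) :=
  linearCombination k fun a => rd k (F (single a 1))

theorem bc_single (F : (A →₀ ℤ) →ₗ[ℤ] (B →₀ ℤ)) (a : A) :
    bc k F (single a 1) = rd k (F (single a 1)) := by simp [bc]

theorem bc_apply (F : (A →₀ ℤ) →ₗ[ℤ] (B →₀ ℤ)) (a : A) (b : B) :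
    bc k F (single a 1) b = (F (single a 1) b : k) := by rw [bc_single, rd_apply]

theorem bc_rd (F : (A →₀ ℤ) →ₗ[ℤ] (B →₀ ℤ)) (c : A →₀ ℤ) : bc k F (rd k c) = rd k (F c) := by
  induction c using Finsupp.induction_linear with
  | zero => simp
  | add a b ha hb => simp only [map_add, ha, hb]
  | single a r =>
    rw [← mul_one r, ← smul_eq_mul, ← smul_single, map_zsmul, map_zsmul, map_zsmul, map_zsmul,
      rd_single, Int.cast_one, bc_single]

theorem au_rd (c : A →₀ ℤ) : au k A (rd k c) = (au ℤ A c : k) := by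
  induction c using Finsupp.induction_linear with
  | zero => simp
  | add a b ha hb => simp only [map_add, ha, hb, Int.cast_add]
  | single a r => rw [rd_single, au_single, au_single]

theorem tr_rd [MulAction G A] (g : G) (c : A →₀ ℤ) : tr k g (rd k c) = rd k (tr ℤ g c) := by
  ext a; simp only [tr_apply, rd_apply]

variable {k} in
theorem ext_rd {V : Type} [AddCommGroup V] [Module k V] {S T : (A →₀ k) →ₗ[k] V}
    (h : ∀ c, S (rd k c) = T (rd k c)) (c : A →₀ k) : S c = T c := by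
  have : S = T := lhom_ext' fun a => LinearMap.ext_ring (by simpa [rd_single] using h (single a 1))
  rw [this]

end bc

section fin
variable {k : Type} [CommRing k] {A B : Type} [MulAction G A] [MulAction G B]

theorem exists_lab0 (hf : ∀ (g : G) (a : A), g • a = a → g = 1) :
    ∃ l : A → G, ∀ (g : G) a, l (g • a) = g * l a := by
  let r : A → A := fun a => (Quotient.mk (MulAction.orbitRel G A) a).out
  have h1 : ∀ a, ∃ g : G, g • r a = a := fun a =>
    MulAction.orbitRel_apply.1 ((MulAction.orbitRel G A).symm (Quotient.mk_out a))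
  have h2 : ∀ (g : G) a, r (g • a) = r a := fun g a =>
    congrArg Quotient.out (Quotient.sound (MulAction.orbitRel_apply.2 ⟨g, rfl⟩))
  choose u hu using h1
  refine ⟨u, fun g a => ?_⟩
  have := hf ((g * u a)⁻¹ * u (g • a)) (r a) (by
    rw [mul_smul, inv_smul_eq_iff, mul_smul, hu, ← h2 g a, hu])
  exact (inv_mul_eq_one.1 this).symm

/-- the shadow given by an equivariant label -/
def Sh.ofLab (l : A → G) (hl : ∀ (g : G) a, l (g • a) = g * l a) : Sh G A where
  sh a := {l a}
  fin _ := finite_singleton _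
  ne _ := singleton_nonempty _
  smul g a := by rw [hl, smul_set_singleton, smul_eq_mul]
  free g a h := by simpa [h] using (hl g a).symm

theorem mem_W_ofLab {l : A → G} {hl : ∀ (g : G) a, l (g • a) = g * l a} {S : Set G} {c : A →₀ k} :
    c ∈ (Sh.ofLab l hl).W k S ↔ ∀ a, c a ≠ 0 → l a ∈ S := by
  simp [Sh.mem_W, Sh.ofLab]

/-- finitely many cells of bounded shadow -/
def Sh.Fi (P : Sh G A) : Prop := ∀ S : Set G, S.Finite → {a | P.sh a ⊆ S}.Finite

theorem fin_lab {l : A → G} (hl : ∀ (g : G) a, l (g • a) = g * l a)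
    (h : ∃ s : Set A, s.Finite ∧ ∀ x : A, ∃ g : G, g • x ∈ s) {S : Set G} (hS : S.Finite) :
    {a | l a ∈ S}.Finite := by
  obtain ⟨s, hs, h⟩ := h
  refine ((hS.prod hs).image fun p : G × A => (p.1 * (l p.2)⁻¹) • p.2).subset fun a ha => ?_
  obtain ⟨g, hg⟩ := h a
  exact ⟨(l a, g • a), ⟨ha, hg⟩, by simp [hl, smul_smul]⟩

theorem fi_ofLab {l : A → G} (hl : ∀ (g : G) a, l (g • a) = g * l a)
    (h : ∃ s : Set A, s.Finite ∧ ∀ x : A, ∃ g : G, g • x ∈ s) : (Sh.ofLab l hl).Fi := fun S hS => by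
  simpa [Sh.ofLab] using fin_lab hl h hS

theorem ctl_of_fi {P : Sh G A} (h : P.Fi) (Q : Sh G B) (F : (A →₀ k) →ₗ[k] (B →₀ k)) :
    Ctl P Q F := by
  choose T hT hT' using fun a => Q.exists_W (F (single a 1))
  exact ctl_of fun S hS => ⟨⋃ a ∈ {a | P.sh a ⊆ S}, T a, (h S hS).biUnion fun a _ => hT a,
    fun a ha => Q.W_mono (subset_biUnion_of_mem (u := T) ha) (hT' a)⟩

theorem uf_of_fi [IsNoetherianRing k] {P : Sh G A} (h : P.Fi) (Q : Sh G B)
    {d : (B →₀ k) →ₗ[k] (A →₀ k)} {Z : Submodule k (A →₀ k)} (hZ : ∀ c ∈ Z, ∃ b, d b = c) :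
    UF P Q d Z := by
  intro S hS
  have h1 : (P.W k S).FG := by
    rw [Sh.W, supported_eq_span_single]
    exact Submodule.fg_span ((h S hS).image _)
  have h2 : (P.W k S ⊓ Z).FG := h1.of_le inf_le_left
  obtain ⟨t, ht, ht'⟩ := Submodule.fg_def.1 h2
  have h3 : ∀ c : t, ∃ b, d b = c := fun c =>
    hZ _ ((ht' ▸ Submodule.subset_span c.2 : c.1 ∈ P.W k S ⊓ Z).2)
  choose b hb using h3
  choose T hT hT' using fun c => Q.exists_W (b c)
  have := ht.to_subtype
  refine ⟨⋃ c, T c, finite_iUnion hT, fun c hc hc' => ?_⟩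
  have h4 : c ∈ Submodule.span k t := ht' ▸ ⟨hc, hc'⟩
  exact (Submodule.span_le (p := (Q.W k (⋃ c, T c)).map d)).2
    (fun x hx => ⟨b ⟨x, hx⟩, Q.W_mono (subset_iUnion _ _) (hT' _), hb _⟩) h4

end fin

variable {X : ℕ → Type} [∀ n, MulAction G (X n)] (R : FR G X)

theorem exists_lift {A B C : Type} {d : (C →₀ ℤ) →ₗ[ℤ] (B →₀ ℤ)} {z : (A →₀ ℤ) →ₗ[ℤ] (B →₀ ℤ)}
    (h : ∀ c, ∃ b, d b = z c) : ∃ F : (A →₀ ℤ) →ₗ[ℤ] (C →₀ ℤ), ∀ c, d (F c) = z c := by
  choose b hb using fun a => h (single a 1)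
  refine ⟨linearCombination ℤ b, fun c => ?_⟩
  have : d ∘ₗ linearCombination ℤ b = z := lhom_ext' fun a => LinearMap.ext_ring (by simp [hb])
  exact LinearMap.congr_fun this c

/-- a contraction of the resolution -/
theorem exists_contr (x : X 0) : ∃ h : ∀ n, (X n →₀ ℤ) →ₗ[ℤ] (X (n + 1) →₀ ℤ),
    (∀ c, R.d 0 (h 0 c) = c - au ℤ _ c • single x 1) ∧
      ∀ n c, R.d (n + 1) (h (n + 1) c) = c - h n (R.d n c) := by
  have a0 : ∀ c, au ℤ _ (R.d 0 c) = 0 := fun c => R.exact0.apply_apply_eq_zero c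
  obtain ⟨h0, d0⟩ := exists_lift (d := R.d 0) (z := LinearMap.id - (au ℤ _).smulRight (single x 1))
    fun c => (R.exact0 _).1 (by
      change au ℤ _ _ = 0
      simp [au_single])
  let T : ℕ → Type := fun n => {h : (X n →₀ ℤ) →ₗ[ℤ] (X (n + 1) →₀ ℤ) //
    ∀ c, R.d n (h (R.d n c)) = R.d n c}
  have st : ∀ n (h : T n), ∃ h' : T (n + 1), ∀ c, R.d (n + 1) (h'.1 c) = c - h.1 (R.d n c) := by
    intro n h
    obtain ⟨h', hh⟩ := exists_lift (d := R.d (n + 1)) (z := LinearMap.id - h.1 ∘ₗ R.d n)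
      fun c => (R.exact n _).1 (by simp [h.2])
    exact ⟨⟨h', fun c => by simp [hh, (R.exact n).apply_apply_eq_zero]⟩, hh⟩
  choose nx hnx using st
  let H : ∀ n, T n := fun n => Nat.rec (motive := T) ⟨h0, fun c => by simp [d0, a0]⟩ nx n
  exact ⟨fun n => (H n).1, d0, fun n => hnx n (H n)⟩

variable (k : Type) [CommRing k]

theorem bc_dd (n : ℕ) (c : X (n + 2) →₀ k) : bc k (R.d n) (bc k (R.d (n + 1)) c) = 0 :=
  ext_rd (S := bc k (R.d n) ∘ₗ bc k (R.d (n + 1))) (T := 0)
    (fun c => by simp [bc_rd, (R.exact n).apply_apply_eq_zero]) c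

theorem bc_aud (c : X 1 →₀ k) : au k _ (bc k (R.d 0) c) = 0 :=
  ext_rd (S := au k _ ∘ₗ bc k (R.d 0)) (T := 0) (fun c => by
    have : au ℤ _ (R.d 0 c) = 0 := R.exact0.apply_apply_eq_zero c
    simp [bc_rd, au_rd, this]) c

theorem bc_ex0 (c : X 0 →₀ k) (hc : au k _ c = 0) : ∃ b, bc k (R.d 0) b = c := by
  obtain ⟨x⟩ := R.ne
  obtain ⟨h, h0, -⟩ := exists_contr R x
  refine ⟨bc k (h 0) c, ?_⟩
  have := ext_rd (S := bc k (R.d 0) ∘ₗ bc k (h 0))
    (T := LinearMap.id - (au k _).smulRight (single x 1)) (fun c => by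
      simp [bc_rd, h0, au_rd, rd_single]) c
  simpa [hc] using this

theorem bc_ex (n : ℕ) (c : X (n + 1) →₀ k) (hc : bc k (R.d n) c = 0) :
    ∃ b, bc k (R.d (n + 1)) b = c := by
  obtain ⟨x⟩ := R.ne
  obtain ⟨h, -, h1⟩ := exists_contr R x
  refine ⟨bc k (h (n + 1)) c, ?_⟩
  have := ext_rd (S := bc k (R.d (n + 1)) ∘ₗ bc k (h (n + 1)))
    (T := LinearMap.id - bc k (h n) ∘ₗ bc k (R.d n)) (fun c => by simp [bc_rd, h1]) c
  simpa [hc] using this

theorem bc_eqv (n : ℕ) : Eqv G (bc k (R.d n)) := eqv_of fun g a => by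
  rw [bc_single, bc_single, tr_rd, R.eqv, tr_eq]

/-- equivariant labels of the cells -/
structure Lab (G : Type) [Group G] (X : ℕ → Type) [∀ n, MulAction G (X n)] where
  l : ∀ n, X n → G
  smul : ∀ n (g : G) a, l n (g • a) = g * l n a

include R in
theorem nonempty_lab : Nonempty (Lab G X) := by
  choose l hl using fun n => exists_lab0 (R.free n)
  exact ⟨⟨l, hl⟩⟩

/-- shadows of the cells -/
def Lab.P (L : Lab G X) (n : ℕ) : Sh G (X n) := Sh.ofLab (L.l n) (L.smul n)

variable {k} in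
theorem Lab.mem_W (L : Lab G X) {n : ℕ} {S : Set G} {c : X n →₀ k} :
    c ∈ (L.P n).W k S ↔ ∀ a, c a ≠ 0 → L.l n a ∈ S := mem_W_ofLab

include R in
theorem Lab.fi (L : Lab G X) (n : ℕ) : (L.P n).Fi := fi_ofLab (L.smul n) (R.fin n)

include R in
theorem Lab.fin (L : Lab G X) (n : ℕ) {S : Set G} (hS : S.Finite) : {a | L.l n a ∈ S}.Finite :=
  fin_lab (L.smul n) (R.fin n) hS

/-- **the cellular complex** -/
def cell [IsNoetherianRing k] (L : Lab G X) : Cx k G X where
  P := L.P
  d n := bc k (R.d n)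
  eqv := bc_eqv R k
  ctl n := ctl_of_fi (L.fi R _) _ _
  dd := bc_dd R k
  aud := bc_aud R k
  uf0 := uf_of_fi (L.fi R _) _ (bc_ex0 R k)
  uf n := uf_of_fi (L.fi R _) _ (bc_ex R k n)
  ne := R.ne

/-- pairing of a finitely supported cochain with a chain -/
def pr {A : Type} (φ : A →₀ k) : (A →₀ k) →ₗ[k] k := linearCombination k φ

variable {k}

theorem pr_single {A : Type} (φ : A →₀ k) (a : A) (r : k) : pr k φ (single a r) = r * φ a := by
  simp [pr]

theorem pr_comm {A : Type} (φ c : A →₀ k) : pr k φ c = pr k c φ := by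
  induction c using Finsupp.induction_linear with
  | zero => simp [pr]
  | add a b ha hb =>
    rw [map_add, ha, hb]
    simp [pr, linearCombination_apply, Finsupp.sum, mul_add, Finset.sum_add_distrib]
  | single a r =>
    classical
    rw [pr_single]
    simp only [pr, linearCombination_apply, single_apply, smul_eq_mul, mul_ite, mul_zero]
    rw [Finsupp.sum_ite_eq]
    split_ifs with h
    · exact mul_comm _ _
    · rw [notMem_support_iff.1 h, mul_zero]

theorem pr_eq_zero {A : Type} {φ c : A →₀ k} (h : ∀ a, c a ≠ 0 → φ a = 0) : pr k φ c = 0 := by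
  rw [pr, linearCombination_apply]
  exact Finset.sum_eq_zero fun a ha => by simp [h a (mem_support_iff.1 ha)]

theorem eq_of_pr {A : Type} {φ ψ : A →₀ k} (h : ∀ c, pr k φ c = pr k ψ c) : φ = ψ := by
  ext a; simpa [pr_single] using h (single a 1)

/-- the coboundary is the transpose of the boundary -/
theorem pr_de (n : ℕ) (φ : X n →₀ k) (c : X (n + 1) →₀ k) :
    pr k (bc k (R.de n) φ) c = pr k φ (bc k (R.d n) c) := by
  induction c using Finsupp.induction_linear with
  | zero => simp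
  | add a b ha hb => simp only [map_add, ha, hb]
  | single y r =>
    rw [← mul_one r, ← smul_eq_mul, ← smul_single, map_smul, map_smul, map_smul]
    congr 1
    rw [pr_comm φ, pr_comm (bc k (R.de n) φ)]
    induction φ using Finsupp.induction_linear with
    | zero => simp
    | add a b ha hb => simp only [map_add, ha, hb]
    | single x s =>
      rw [← mul_one s, ← smul_eq_mul, ← smul_single, map_smul, map_smul, map_smul, pr_comm,
        pr_single, pr_single, bc_apply, bc_apply, FR.de_single]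

end Crest.Agent.N255.Gs

end
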