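import Crest.Agent.N255.Gs.Far

/-!
# Row 255 (helper89): the degree of a cochain whose coboundary has compact support on small simplices
-/

set_option autoImplicit false
open Set Filter Topology

noncomputable section

namespace Crest.Agent.N255.Gs

open Crest.Agent.N255.Tp

variable {X : Type} [TopologicalSpace X] {n d : ℕ} {K K' : Set X} {𝒰 : Set (Set X)}

section ring

variable {k : Type} [CommRing k] {A : Type} [AddCommGroup A] [Module k A]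

variable (k 𝒰) in
/-- pull back along the subdivision -/
def sr (ψ : Co A n X) : Co A n X := fun σ => ev k ψ (Sml.rho k 𝒰 n (sg k σ))

theorem ev_sr (ψ : Co A n X) (c : Ch k n X) : ev k (sr 𝒰 k ψ) c = ev k ψ (Sml.rho k 𝒰 n c) :=
  Uct.ev_lin (ev k ψ ∘ₗ Sml.rho k 𝒰 n) c

theorem cob_sr (ψ : Co A n X) : cob k (sr 𝒰 k ψ) = sr 𝒰 k (cob k ψ) := funext fun σ => by
  rw [Det.cob_ev, ev_sr, sr, ← ev_bd, Sml.bd_rho]

theorem sr_van (hU : ∀ U ∈ 𝒰, IsOpen U) (hc : univ ⊆ ⋃₀ 𝒰) {W : Set X} {ψ : Co A n X}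
    (h : ψ ∈ ((On W).inf (Sm 𝒰)).van k A n) : sr 𝒰 k ψ ∈ (On W).van k A n := fun _ hσ =>
  Sb.ev_eq_zero h (Sml.rho_inf k hU ((subset_univ _).trans hc) (Sb.sg_mem (P := On W) hσ))

variable {O : Ori k d X}

theorem bd_small {z : Ch k (d + 1) X} (hs : z ∈ (Sm 𝒰).ch k (d + 1)) (hz : O.Fund K z) :
    bd k z ∈ ((On Kᶜ).inf (Sm 𝒰)).ch k d := Sml.mem_inf hz.rc (Sb.bd_mem hs)

variable (O 𝒰) in
/-- the degree -/
def deg (ψ : Co A d X) (K : Set X) : A := ev k (sr 𝒰 k (cob k ψ)) (O.μ K)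

theorem cob_sr_cob (ψ : Co A n X) : cob k (sr 𝒰 k (cob k ψ)) = 0 := by
  rw [← cob_sr, cob_cob]

theorem deg_eq (hU : ∀ U ∈ 𝒰, IsOpen U) (hc : univ ⊆ ⋃₀ 𝒰) (hK : IsCompact K) {ψ : Co A d X}
    (h : cob k ψ ∈ ((On Kᶜ).inf (Sm 𝒰)).van k A (d + 1)) {z : Ch k (d + 1) X}
    (hs : z ∈ (Sm 𝒰).ch k (d + 1)) (hz : O.Fund K z) : ev k ψ (bd k z) = deg 𝒰 O ψ K := by
  rw [deg, ← hz.ev_eq (O.fund_μ hK) (sr_van hU hc h) (cob_sr_cob ψ), ev_sr, Sml.rho_of_sm k 𝒰 hs,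
    ev_bd]

theorem deg_indep (hU : ∀ U ∈ 𝒰, IsOpen U) (hc : univ ⊆ ⋃₀ 𝒰) (hK : IsCompact K)
    (hK' : IsCompact K') {ψ : Co A d X} (h : cob k ψ ∈ ((On Kᶜ).inf (Sm 𝒰)).van k A (d + 1))
    (h' : cob k ψ ∈ ((On K'ᶜ).inf (Sm 𝒰)).van k A (d + 1)) : deg 𝒰 O ψ K = deg 𝒰 O ψ K' :=
  O.ev_indep hK hK' (sr_van hU hc h) (sr_van hU hc h') (cob_sr_cob ψ)

theorem van_supp' (h : K ⊆ K') :
    ((On Kᶜ).inf (Sm 𝒰)).van k A n ≤ ((On K'ᶜ).inf (Sm 𝒰)).van k A n :=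
  Sb.van_mono fun _ _ hσ => ⟨hσ.1.trans (compl_subset_compl.2 h), hσ.2⟩

/-- cochains which are exact near infinity have degree zero -/
theorem ev_bd_zero {O : Ori k (d + 1) X} {ψ : Co A (d + 1) X} {χ : Co A d X}
    (h : ψ - cob k χ ∈ ((On Kᶜ).inf (Sm 𝒰)).van k A (d + 1)) {z : Ch k (d + 2) X}
    (hs : z ∈ (Sm 𝒰).ch k (d + 2)) (hz : O.Fund K z) : ev k ψ (bd k z) = 0 := by
  rw [Sb.ev_congr h (bd_small hs hz), ← ev_bd, bd_bd, map_zero]

end ring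

variable {k : Type} [Field k] [T2Space X] [ChartedSpace (EE (d + 1)) X] {O : Ori k d X}

/-- top dimensional cocycles are detected by the fundamental class -/
theorem top_exact (hO : O.ND) (hA : Acy k (univ : Set X) univ) (hK : IsCompact K)
    {φ : Co k (d + 1) X} (hφ : φ ∈ (On Kᶜ).van k k (d + 1)) (h0 : cob k φ = 0)
    {z : Ch k (d + 1) X} (hz : O.Fund K z) (h : ev k φ z = 0) :
    ∃ η ∈ Cc k (univ : Set X) k d, cob k η = φ := by
  refine (pdS_holds k d X O hO _ (capS_holds k X).1 univ isOpen_univ).2 d φ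
    ⟨K, hK, subset_univ _, hφ⟩ h0 fun j hj => ?_
  obtain rfl : j = 0 := by omega
  exact ⟨K, z, hK, subset_univ _, hφ, mem_ch_univ z, hz, by
    rw [sub_zero]; exact hA.aug (mem_ch_univ _) (by rw [(capS_holds k X).1.aug, h])⟩

/-- **non zero degree** -/
theorem deg_ne (hO : O.ND) (hA : Acy k (univ : Set X) univ) (hU : ∀ U ∈ 𝒰, IsOpen U)
    (hc : univ ⊆ ⋃₀ 𝒰) (hK : IsCompact K) {ψ : Co k d X}
    (h : cob k ψ ∈ ((On Kᶜ).inf (Sm 𝒰)).van k k (d + 1))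
    (hS : ∀ K', IsCompact K' → ∃ c ∈ (On K'ᶜ).ch k d, c ∈ rcyc k X d ∧
      ev k ψ (Sml.rho k 𝒰 d c) ≠ 0) : deg 𝒰 O ψ K ≠ 0 := fun h0 => by
  obtain ⟨η, ⟨K', a1, -, a2⟩, e⟩ :=
    top_exact hO hA hK (sr_van hU hc h) (cob_sr_cob ψ) (O.fund_μ hK) h0
  obtain ⟨c, h1, h2, h3⟩ := hS K' a1
  obtain ⟨w, -, rfl⟩ := hA d ⟨mem_ch_univ c, h2⟩
  apply h3
  rw [← ev_sr, ev_bd, cob_sr, ← e, ← ev_bd]
  exact Sb.ev_eq_zero a2 h1

end Crest.Agent.N255.Gs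

namespace Crest.Agent.N255.Tp.Ori

variable {X : Type} [TopologicalSpace X] {d : ℕ} {k : Type} [CommRing k]

/-- rescaling -/
def sc (O : Ori k d X) (a : k) : Ori k d X where
  μ K := a • O.μ K
  rc K hK := by rw [map_smul]; exact Submodule.smul_mem _ a (O.rc K hK)
  cmp K L hK hL h := by rw [← smul_sub]; exact Submodule.smul_mem _ a (O.cmp K L hK hL h)

theorem Fund.sc {O : Ori k d X} {K : Set X} {z : Ch k (d + 1) X} (h : O.Fund K z) (a : k) :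
    (O.sc a).Fund K (a • z) :=
  ⟨by rw [map_smul]; exact Submodule.smul_mem _ a h.rc,
    by rw [show (O.sc a).μ K = a • O.μ K from rfl, ← smul_sub]; exact Submodule.smul_mem _ a h.eq⟩

theorem Fund.of_sc {O : Ori k d X} {K : Set X} {z : Ch k (d + 1) X} {a b : k} (hab : b * a = 1)
    (h : (O.sc a).Fund K z) : O.Fund K (b • z) :=
  ⟨by rw [map_smul]; exact Submodule.smul_mem _ b h.rc, by
    have := Submodule.smul_mem _ b h.eq
    rwa [smul_sub, show (O.sc a).μ K = a • O.μ K from rfl, smul_smul, hab, one_smul] at this⟩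

theorem ND.sc {O : Ori k d X} (h : O.ND) {a b : k} (hab : b * a = 1) : (O.sc a).ND := fun x hx =>
  h x (by
    have := Submodule.smul_mem _ b hx
    rwa [show (O.sc a).μ {x} = a • O.μ {x} from rfl, smul_smul, hab, one_smul] at this)

end Crest.Agent.N255.Tp.Ori

end
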