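import Crest.Agent.N255.Gs.Far
import Crest.Agent.N255.Fa.Cf

/-!
# Row 255 (helper89): from pro-vanishing of compactly supported cellular cohomology over `ℤ` to
pro-acyclic open sets of the manifold
-/

set_option autoImplicit false
open Set Finsupp
open scoped Pointwise

noncomputable section

namespace Crest.Agent.N255.Fa

open Gc Gs Ce Ch Tp Uc

variable {G C : Type} [Group G] [MulAction G C] {U : UG G C} {or : C → ℤ}

/-- cocycles supported in `B'` with orientation sum zero are coboundaries of cochains supported in `B` -/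
def PEx (U : UG G C) (or : C → ℤ) (B' B : Set C) : Prop :=
  ∀ b ∈ Sp B', U.de b = 0 → linearCombination ℤ or b = 0 → ∃ a ∈ Sp B, U.de a = b

theorem PEx.mono {B B' D D' : Set C} (h : PEx U or B' B) (h' : D' ⊆ B') (h'' : B ⊆ D) :
    PEx U or D' D := fun b hb h0 h1 =>
  (h b (supported_mono h' hb) h0 h1).imp fun _ ha => ⟨supported_mono h'' ha.1, ha.2⟩

theorem PEx.exZ {B B' : Set C} (h : PEx U or B' B) (n : ℕ) {a : U.X (n + 1) →₀ ℤ}
    (ha : a ∈ Sp (gV U B' (n + 1))) (h0 : U.fr.de (n + 1) a = 0)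
    (hs : linearCombination ℤ or (U.ι (n + 1) a) = 0) : ∃ b ∈ Sp (gV U B n), U.fr.de n b = a := by
  obtain ⟨ψ, h1, e⟩ := h _ (ι_mem ha) (by rw [← U.ι_de, h0, map_zero]) hs
  exact ⟨_, π_mem n h1, U.de_π n e⟩

/-- four retreats -/
structure Tw4 (U : UG G C) (or : C → ℤ) (B : ℕ → Set C) : Prop where
  anti : Antitone B
  pe : ∀ i, i < 4 → PEx U or (B (i + 1)) (B i)
  cl : Cl U.de (Sp (B 4))
  top : ∃ x ∈ B 4, or x = 1 ∨ or x = -1

theorem gV_mono {V V' : Set C} (h : V ⊆ V') (n : ℕ) : gV U V n ⊆ gV U V' n := fun _ hx => h hx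

/-- the orientation coefficients -/
def oc (U : UG G C) (or : C → ℤ) (k : Type) [CommRing k] : U.X (3 + 1) → k := fun x => (or x.1 : k)

namespace Tw4

variable {B : ℕ → Set C}

theorem de_mem (h : Tw4 U or B) (n : ℕ) {a : U.X n →₀ ℤ} (ha : a ∈ Sp (gV U (B 4) n)) :
    U.fr.de n a ∈ Sp (gV U (B 4) (n + 1)) := by
  rw [U.fr_de]; exact π_mem _ (h.cl _ (ι_mem ha))

theorem topZ (h : Tw4 U or B) (q : Qd U or univ) : ∃ a ∈ Sp (gV U (B 4) 4),
    linearCombination ℤ (fun x : U.X 4 => or x.1) a = 1 := by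
  obtain ⟨x, hx, e⟩ := h.top
  have hd : U.dim x = 4 := q.hd x (by omega)
  refine ⟨single ⟨x, hd⟩ (or x), single_mem_supported ℤ _ hx, ?_⟩
  rw [linearCombination_single, smul_eq_mul]
  rcases e with e | e <;> simp [e]

/-- one step of a contraction -/
def Ct (U : UG G C) (B : ℕ → Set C) (n : ℕ) (F : (U.X (n + 1) →₀ ℤ) →ₗ[ℤ] (U.X n →₀ ℤ)) : Prop :=
  (∀ c, F c ∈ Sp (gV U (B n) n)) ∧
    ∀ c ∈ Sp (gV U (B 4) n), U.fr.de n (F (U.fr.de n c)) = U.fr.de n c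

theorem ct3 (h : Tw4 U or B) (q : Qd U or univ) : ∃ a0 F, Ct U B 3 F ∧
    ∀ c ∈ Sp (gV U (B 4) 4), U.fr.de 3 (F c) =
      c - linearCombination ℤ (fun x : U.X 4 => or x.1) c • a0 := by
  obtain ⟨a0, h0, h1⟩ := h.topZ q
  obtain ⟨F, f1, f2⟩ := exists_lift_on (d := U.fr.de 3) (VA := gV U (B 4) 4) (VC := gV U (B 3) 3)
    (z := LinearMap.id - (linearCombination ℤ fun x : U.X 4 => or x.1).smulRight a0) fun c hc =>
      (h.pe 3 (by omega)).exZ 3 (Submodule.sub_mem _ hc (Submodule.smul_mem _ _ h0))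
        (q.eq_zero (by omega) _) (by
        rw [U.lc_ι]
        simp [h1])
  refine ⟨a0, F, ⟨f1, fun c hc => ?_⟩, f2⟩
  rw [f2 _ (h.de_mem 3 hc), LinearMap.sub_apply, LinearMap.smulRight_apply, ← U.lc_ι, U.ι_de, q.st,
    zero_smul, sub_zero, LinearMap.id_apply]

theorem ct_step (h : Tw4 U or B) (q : Qd U or univ) {n : ℕ} (hn : n < 3) {F'}
    (h' : Ct U B (n + 1) F') : ∃ F, Ct U B n F ∧
      ∀ c ∈ Sp (gV U (B 4) (n + 1)), U.fr.de n (F c) = c - F' (U.fr.de (n + 1) c) := by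
  obtain ⟨F, f1, f2⟩ := exists_lift_on (d := U.fr.de n) (VA := gV U (B 4) (n + 1))
    (VC := gV U (B n) n) (z := LinearMap.id - F' ∘ₗ U.fr.de (n + 1)) fun c hc =>
      (h.pe n (by omega)).exZ n (Submodule.sub_mem _
        (supported_mono (gV_mono (h.anti (by omega)) _) hc) (h'.1 _)) (by simp [h'.2 c hc])
        (q.or_ι (by omega) _)
  refine ⟨F, ⟨f1, fun c hc => ?_⟩, f2⟩
  rw [f2 _ (h.de_mem n hc)]
  simp [U.fr.de_de]

theorem ct (h : Tw4 U or B) (q : Qd U or univ) {n : ℕ} (hn : n ≤ 3) : ∃ F, Ct U B n F := by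
  obtain ⟨-, F3, c3, -⟩ := h.ct3 q
  obtain ⟨F2, c2, -⟩ := h.ct_step q (by omega) c3
  obtain ⟨F1, c1, -⟩ := h.ct_step q (by omega) c2
  obtain ⟨F0, c0, -⟩ := h.ct_step q (by omega) c1
  interval_cases n
  exacts [⟨F0, c0⟩, ⟨F1, c1⟩, ⟨F2, c2⟩, ⟨F3, c3⟩]

variable (k : Type) [CommRing k]

theorem kill (h : Tw4 U or B) (q : Qd U or univ) {n : ℕ} (hn : n < 3) {a : U.X (n + 1) →₀ k}
    (ha : a ∈ supported k k (gV U (B 4) (n + 1))) (h0 : bc k (U.fr.de (n + 1)) a = 0) :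
    ∃ b ∈ supported k k (gV U (B 0) n), bc k (U.fr.de n) b = a := by
  obtain ⟨F', c'⟩ := h.ct q (n := n + 1) hn
  obtain ⟨F, c, e⟩ := h.ct_step q hn c'
  refine ⟨bc k F a, supported_mono (gV_mono (h.anti (Nat.zero_le n)) n) (bc_mem c.1 a), ?_⟩
  have := ext_rd_on (S := bc k (U.fr.de n) ∘ₗ bc k F)
    (T := LinearMap.id - bc k F' ∘ₗ bc k (U.fr.de (n + 1))) (fun c hc => by simp [bc_rd, e c hc]) ha
  simpa [h0] using this

theorem top4 (h : Tw4 U or B) (q : Qd U or univ) {a : U.X 4 →₀ k}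
    (ha : a ∈ supported k k (gV U (B 4) 4)) (h0 : linearCombination k (oc U or k) a = 0) :
    ∃ b ∈ supported k k (gV U (B 0) 3), bc k (U.fr.de 3) b = a := by
  obtain ⟨a0, F, c, e⟩ := h.ct3 q
  refine ⟨bc k F a, supported_mono (gV_mono (h.anti (Nat.zero_le 3)) 3) (bc_mem c.1 a), ?_⟩
  have := ext_rd_on (S := bc k (U.fr.de 3) ∘ₗ bc k F)
    (T := LinearMap.id - (linearCombination k fun x : U.X 4 => (or x.1 : k)).smulRight (rd k a0))
    (fun c hc => by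
      simp only [LinearMap.comp_apply, bc_rd, e c hc, LinearMap.sub_apply, LinearMap.id_apply,
        LinearMap.smulRight_apply, lc_rd, map_sub, map_zsmul, Int.cast_smul_eq_zsmul]) ha
  rw [LinearMap.comp_apply] at this
  rw [this, LinearMap.sub_apply, LinearMap.smulRight_apply,
    show linearCombination k (fun x : U.X 4 => (or x.1 : k)) a = 0 from h0, zero_smul, sub_zero]
  rfl

end Tw4

variable {k : Type} [Field k]

theorem Tw4.euc {B : ℕ → Set C} (h : Tw4 U or B) (q : Qd U or univ) (L : Lab G U.X) {A A' : Set G}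
    (hA : ∀ n (x : U.X n), L.l n x ∈ A → x.1 ∈ B 4)
    (hA' : ∀ n (x : U.X n), x.1 ∈ B 0 → L.l n x ∈ A') : Euc U.fr L (oc U or k) A A' :=
  ⟨fun n hn _ ha h0 => (h.kill k q hn (supp_of_W k L (hA _) ha) h0).imp fun _ hb =>
      ⟨W_of_supp k L (hA' n) hb.1, hb.2⟩,
    fun _ ha _ h0 => (h.top4 k q (supp_of_W k L (hA _) ha) h0).imp fun _ hb =>
      ⟨W_of_supp k L (hA' 3) hb.1, hb.2⟩⟩

theorem Qd.lfc (q : Qd U or univ) (k : Type) [Field k] : LFc (m := 3) U.fr (oc U or k) := fun φ =>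
  ext_rd (S := linearCombination k (oc U or k) ∘ₗ bc k (U.fr.de 3)) (T := 0) (fun c => by
    rw [LinearMap.comp_apply, bc_rd]
    refine (lc_rd (fun x : U.X 4 => or x.1) _).trans ?_
    rw [← U.lc_ι, U.ι_de, q.st]
    simp) φ

theorem Qd.h0 (q : Qd U or univ) (k : Type) [Field k] (a : U.X 0 →₀ k)
    (h : bc k (U.fr.de 0) a = 0) : a = 0 := q.zero k (fun _ _ => trivial) h

variable {T : Type} [TopologicalSpace T] [MulAction G T] [ContinuousConstSMul G T] {K₀ : Set T}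
  {L : Lab G U.X} {h : FD 4 G K₀}

/-- the orientation of the manifold -/
def Qd.ori (q : Qd U or univ) (g : Mp (cell U.fr k L) (h.sing k)) : Ori k 3 T :=
  Gs.ori g (q.lfc k)

theorem Qd.nd [T2Space T] [ChartedSpace (EE 4) T] (q : Qd U or univ)
    (g : Mp (cell U.fr k L) (h.sing k)) : (q.ori g).ND := by
  obtain ⟨a, -, ha⟩ := q.topZ
  refine ori_nd g (q.lfc k) (a := rd k a) (q.eq_zero (by omega) _) ?_
  rw [show linearCombination k (oc U or k) (rd k a) = _ from lc_rd (fun x : U.X 4 => or x.1) a, ha]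
  simp

theorem Qd.ori_smul (q : Qd U or univ) (hs : ∀ (γ : G) x, or (γ • x) = or x)
    (g : Mp (cell U.fr k L) (h.sing k)) (γ : G) {A : Set T} (hA : IsCompact A) {z : Tp.Ch k 4 T}
    (hz : (q.ori g).Fund A z) : (q.ori g).Fund (γ • A) (push k (Uc.tr γ) z) :=
  Gs.ori_smul g (q.lfc k) (fun γ x => congrArg (Int.cast : ℤ → k) (hs γ x.1)) γ hA hz

/-- no homology of open sets from degree four on -/
theorem Qd.hi_van (q : Qd U or univ) (h : FD 4 G K₀) (k : Type) [Field k] {V : Set T}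
    (hV : IsOpen V) : ∀ m, 3 ≤ m → ∀ c ∈ (On V).ch k (m + 1), bd k c = 0 →
      c ∈ (On V).B k (m + 1) := by
  have := gm_countable h.gm
  have := h.gm.t2
  obtain ⟨ch⟩ := h.gm.chart
  obtain ⟨L⟩ := nonempty_lab U.fr
  obtain ⟨g⟩ := exists_mp (cell U.fr k L) (h.sing k)
  obtain ⟨f⟩ := exists_mp (h.sing k) (cell U.fr k L)
  obtain ⟨H⟩ := exists_ht (g.comp f) (Mp.id _)
  exact Tp.hi_van (q.nd g) (no_c0 H (q.h0 k)) hV

/-- **transfer of pro-acyclicity** -/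
theorem acy_of_pex (q : Qd U or univ) (h : FD 4 G K₀) (L : Lab G U.X) (k : Type) [Field k] :
    ∃ S : Set G, S.Finite ∧ 1 ∈ S ∧ ∀ B : ℕ → Set C, Tw4 U or B → ∀ A A' : Set G,
      (∀ n (x : U.X n), L.l n x ∈ A * S → x.1 ∈ B 4) →
      (∀ n (x : U.X n), x.1 ∈ B 0 → L.l n x ∈ A') →
      ∀ V V' : Set T, IsOpen V → V ⊆ sat A K₀ → IsOpen V' → sat ((A ∪ A') * S) K₀ ⊆ V' →
        Acy k V V' := by
  have := gm_countable h.gm
  have := h.gm.t2
  obtain ⟨ch⟩ := h.gm.chart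
  obtain ⟨g⟩ := exists_mp (cell U.fr k L) (h.sing k)
  obtain ⟨f⟩ := exists_mp (h.sing k) (cell U.fr k L)
  obtain ⟨H⟩ := exists_ht (g.comp f) (Mp.id _)
  obtain ⟨S, h1, h2, h3⟩ := acy_of_cells H (q.lfc k) (q.nd g) (q.h0 k)
  exact ⟨S, h1, h2, fun B hB A A' hA hA' => h3 A A' (hB.euc q L hA hA')⟩

end Crest.Agent.N255.Fa

end
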