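import Crest.Agent.N255.Gs.Cx
import Crest.Agent.N255.Uc.Sh

/-!
# Row 255, block D (helper89): the singular complex of a `G`-manifold as a complex with shadows
-/

set_option autoImplicit false
open Set Filter Topology
open scoped Pointwise

noncomputable section

namespace Crest.Agent.N255.Gs

open Crest.Agent.N255.Tp Crest.Agent.N255.Uc

variable {G T : Type} [Group G] [TopologicalSpace T] [MulAction G T] [ContinuousConstSMul G T]
  {d n : ℕ}

/-- a `G`-manifold with a chosen compact fundamental set -/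
structure FD (d : ℕ) (G : Type) {T : Type} [Group G] [TopologicalSpace T] [MulAction G T]
    (K : Set T) : Prop where
  gm : GM d G T
  cpt : IsCompact K
  cov : ∀ x, ∃ g : G, g⁻¹ • x ∈ interior K

omit [ContinuousConstSMul G T] in
theorem exists_FD (h : GM d G T) : ∃ K : Set T, FD d G K := by
  obtain ⟨K, h1, h2⟩ := h.exists_fd
  exact ⟨K, h, h1, h2⟩

omit [ContinuousConstSMul G T] in
theorem gm_countable (h : GM d G T) : Countable G := by
  have := h.lc
  have := h.sc
  have := h.pc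
  obtain ⟨x⟩ : Nonempty T := inferInstance
  have h1 : (univ : Set G) ⊆ ⋃ j, {g : G | ∃ y ∈ ({x} : Set T), g • y ∈ compactCovering T j} := by
    intro g _
    obtain ⟨j, hj⟩ := exists_mem_compactCovering (g • x)
    exact mem_iUnion.2 ⟨j, x, rfl, hj⟩
  exact countable_univ_iff.1 ((countable_iUnion fun j =>
    (h.prp _ _ isCompact_singleton (isCompact_compactCovering T j)).countable).mono h1)

theorem tr_eq_push {k : Type} [CommRing k] (g : G) (c : Ch k n T) :
    tr k g c = push k (Uc.tr g) c := rfl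

namespace FD

variable {K : Set T} (h : FD d G K)
include h

omit [ContinuousConstSMul G T] in
theorem cov' (x : T) : ∃ g : G, g⁻¹ • x ∈ K := (h.cov x).imp fun _ hg => interior_subset hg

/-- shadows of singular simplices -/
def shS (n : ℕ) : Sh G (Sx n T) where
  sh := sh G K
  fin := h.gm.sh_finite h.cpt
  ne := sh_nonempty h.cov'
  smul g σ := sh_smul g σ
  free g σ e := h.gm.free_sx g σ e

theorem shS_sh (σ : Sx n T) : (h.shS n).sh σ = sh G K σ := rfl

theorem W_eq (k : Type) [CommRing k] (S : Set G) : (h.shS n).W k S = (Wd K S).ch k n := rfl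

theorem W_eq' (k : Type) [CommRing k] (S : Set G) : (h.shS n).W k S = (On (cor K S)).ch k n := by
  rw [W_eq, Wd_eq]

theorem W_le_On (k : Type) [CommRing k] (S : Set G) : (h.shS n).W k S ≤ (On (sat S K)).ch k n :=
  Sb.ch_mono (Wd_le_On h.cov' S)

theorem On_le_W (k : Type) [CommRing k] (A : Set T) :
    (On A).ch k n ≤ (h.shS n).W k (shs G K A) := Sb.ch_mono (On_le_Wd K A)

/-- the singular complex -/
def sing (k : Type) [Field k] : Cx k G (fun n => Sx n T) where
  P := h.shS
  d _ := bd k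
  eqv _ g c := bd_push (Uc.tr g) c
  ctl n S hS := ⟨S, hS, fun _ hc => Sb.bd_mem (P := Wd K S) hc⟩
  dd _ c := bd_bd c
  aud c := aug_bd c
  uf0 S hS := by
    obtain ⟨S', h1, -, h2⟩ := h.gm.uac h.cpt h.cov' k 0 hS
    exact ⟨S', h1, fun c hc h0 => h2 ⟨hc, h0⟩⟩
  uf n S hS := by
    obtain ⟨S', h1, -, h2⟩ := h.gm.uac h.cpt h.cov' k (n + 1) hS
    exact ⟨S', h1, fun c hc h0 => h2 ⟨hc, h0⟩⟩
  ne := by
    have := h.gm.pc
    obtain ⟨x⟩ : Nonempty T := inferInstance
    exact ⟨ContinuousMap.const _ x⟩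

theorem sing_d (k : Type) [Field k] (n : ℕ) : (h.sing k).d n = bd k := rfl

theorem sing_P (k : Type) [Field k] (n : ℕ) : (h.sing k).P n = h.shS n := rfl

/-- the invariant open cover by the translates of the interior of `K` -/
def cvr (G : Type) {T : Type} [Group G] [TopologicalSpace T] [MulAction G T] (K : Set T) :
    Set (Set T) := range fun g : G => sat {g} (interior K)

omit h in
theorem cvr_open : ∀ U ∈ cvr G K, IsOpen U := by
  rintro _ ⟨g, rfl⟩; exact isOpen_sat _ isOpen_interior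

omit [ContinuousConstSMul G T] in
theorem cvr_cover (A : Set T) : A ⊆ ⋃₀ cvr G K := fun x _ => by
  obtain ⟨g, hg⟩ := h.cov x
  exact ⟨_, ⟨g, rfl⟩, g, rfl, hg⟩

omit [ContinuousConstSMul G T] in
theorem nb_finite : (shs G K K).Finite := h.gm.shs_finite h.cpt h.cpt

omit [ContinuousConstSMul G T] h in
/-- small simplices have size `shs G K K` -/
theorem sh_small {σ : Sx n T} (hσ : σ ∈ (Sm (cvr G K)).S n) :
    ∃ g : G, sh G K σ ⊆ g • shs G K K := by
  obtain ⟨_, ⟨g, rfl⟩, hσ⟩ := hσ
  refine ⟨g, fun a ⟨x, hx, ha⟩ => ?_⟩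
  obtain ⟨g', e, h1⟩ := hσ hx
  rw [show g' = g from e] at h1
  exact ⟨g⁻¹ * a, ⟨_, interior_subset h1, by simpa [smul_smul] using ha⟩, mul_inv_cancel_left g a⟩

/-- small chains in `A` are chains of bounded size over the shadow of `A` -/
theorem small_le_Ws (k : Type) [CommRing k] (A : Set T) :
    ((On A).inf (Sm (cvr G K))).ch k n ≤ (h.shS n).Ws k (shs G K K) (shs G K A) :=
  Finsupp.supported_mono fun σ hσ => by
    obtain ⟨g, hg⟩ := sh_nonempty (G := G) h.cov' σ
    exact ⟨⟨g, hg, shs_mono hσ.1 hg⟩, sh_small hσ.2⟩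

/-- chains of size `S` over `U` lie in the core of `U * S⁻¹ * S` -/
theorem Ws_le_W (k : Type) [CommRing k] (S U : Set G) :
    (h.shS n).Ws k S U ≤ (h.shS n).W k (U * S⁻¹ * S) :=
  Finsupp.supported_mono fun σ ⟨⟨u, hu, hU⟩, g, hg⟩ a ha => by
    obtain ⟨s, hs, rfl⟩ := hg hu
    obtain ⟨t, ht, rfl⟩ := hg ha
    exact ⟨_, ⟨_, hU, s⁻¹, by simpa using hs, rfl⟩, t, ht, by simp⟩

end FD

end Crest.Agent.N255.Gs

end
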