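import Crest.Agent.N255.Gs.Cell
import Crest.Agent.N255.Gs.Sing
import Crest.Agent.N255.Tp.Van
import Crest.Agent.N255.Tp.LocH

/-!
# Row 255, block D (helper58): the orientation of the `G`-manifold which comes from the group
-/

set_option autoImplicit false
open Set Filter Topology
open scoped Pointwise

noncomputable section

namespace Crest.Agent.N255.Gs

open Crest.Agent.N255.Tp Crest.Agent.N255.Uc Crest.Agent.N255.Gc
open Finsupp (single)

variable {G T : Type} [Group G] [TopologicalSpace T] [MulAction G T] [ContinuousConstSMul G T]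
  {d n m : ℕ} {X : ℕ → Type} [∀ n, MulAction G (X n)] {k : Type} [Field k]

/-- the part of the infinite chain `c` on `F` -/
def cutc {A : Type} (c : A → k) (F : Finset A) : A →₀ k := ∑ x ∈ F, single x (c x)

open Classical in
theorem cutc_apply {A : Type} (c : A → k) (F : Finset A) (x : A) :
    cutc c F x = if x ∈ F then c x else 0 := by
  simp [cutc, Finsupp.finsetSum_apply, Finsupp.single_apply]

theorem pr_cutc {A : Type} (c : A → k) {F : Finset A} {φ : A →₀ k} (h : ∀ x, φ x ≠ 0 → x ∈ F) :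
    pr k φ (cutc c F) = Finsupp.linearCombination k c φ := by
  rw [pr_comm, pr, Finsupp.linearCombination_apply, Finsupp.linearCombination_apply]
  refine Finsupp.sum_congr fun x hx => ?_
  rw [cutc_apply, if_pos (h x (Finsupp.mem_support_iff.1 hx))]

theorem pr_far {A : Type} [MulAction G A] {P : Sh G A} (L : Lab G X)
    {F : (A →₀ k) →ₗ[k] (X n →₀ k)} (he : Eqv G F) (hc : Ctl P (L.P n) F) {S : Set G}
    (hS : S.Finite) (a : X n →₀ k) : ∃ S' : Set G, S'.Finite ∧ ∀ γ ∉ S', ∀ c ∈ P.W k (γ • S),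
      pr k a (F c) = 0 := by
  obtain ⟨S1, h1, h2, -⟩ := hc.unif he hS
  refine ⟨L.l n '' a.support * S1⁻¹, (a.support.finite_toSet.image _).mul h1.inv,
    fun γ hγ c hc => pr_eq_zero fun x hx => ?_⟩
  by_contra h0
  obtain ⟨s, hs, e⟩ := L.mem_W.1 (h2 γ c hc) x hx
  exact hγ ⟨_, ⟨x, by simpa using h0, rfl⟩, s⁻¹, by simpa using hs, by simp [← e]⟩

theorem single_mem_lab (L : Lab G X) (x : X n) (r : k) :
    single x r ∈ (L.P n).W k (L.l n x • ({1} : Set G)) :=
  (L.P n).single_mem (by simp [Lab.P, Sh.ofLab]) r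

variable {R : FR G X} {L : Lab G X} {K0 : Set T} {h : FD d G K0}

section
variable (g : Mp (cell R k L) (h.sing k))

theorem g_mem (n : ℕ) : ∃ S : Set G, S.Finite ∧ ∀ x : X n,
    g.f n (single x 1) ∈ (On (cor K0 (L.l n x • S))).ch k n := by
  obtain ⟨S, h1, h2, -⟩ := (g.ctl n).unif (g.eqv n) (finite_singleton 1)
  exact ⟨S, h1, fun x => h.W_eq' k _ ▸ h2 _ _ (single_mem_lab L x 1)⟩

/-- cells far from `A` are mapped off `A` -/
theorem g_off (n : ℕ) : ∃ S : Set G, S.Finite ∧ ∀ (A : Set T) (x : X n),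
    L.l n x ∉ shs G K0 A * S → g.f n (single x 1) ∈ (On Aᶜ).ch k n := by
  obtain ⟨S, h1, h2⟩ := g_mem g n
  refine ⟨S⁻¹, h1.inv, fun A x hx => ch_mono (V := Aᶜ) (fun p hp hA => hx ?_) (h2 x)⟩
  obtain ⟨γ, hγ⟩ := h.cov' p
  obtain ⟨s, hs, e⟩ := hp γ hγ
  exact ⟨γ, ⟨p, hA, hγ⟩, s⁻¹, by simpa using hs, by simp [← e]⟩

/-- cells whose image meets `A` -/
def Mt (n : ℕ) (A : Set T) : Set (X n) := {x | g.f n (single x 1) ∉ (On Aᶜ).ch k n}

theorem mt_finite (n : ℕ) {A : Set T} (hA : IsCompact A) : (Mt g n A).Finite := by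
  obtain ⟨S, h1, h2⟩ := g_off g n
  exact (L.fin R n ((h.gm.shs_finite h.cpt hA).mul h1)).subset fun x hx => by
    by_contra h0; exact hx (h2 A x h0)

theorem g_mem_of {A : Set T} {c : X n →₀ k} (hc : ∀ x, c x ≠ 0 → x ∉ Mt g n A) :
    g.f n c ∈ (On Aᶜ).ch k n :=
  map_mem_of (s := (Mt g n A)ᶜ) (fun _ ha => not_not.1 ha)
    ((Finsupp.mem_supported k c).2 fun x hx => hc x (by simpa using hx))

theorem mt_smul (γ : G) {A : Set T} {x : X n} (hx : γ • x ∈ Mt g n (γ • A)) : x ∈ Mt g n A := by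
  intro h0
  refine hx ?_
  rw [← tr_single, g.eqv, tr_eq_push]
  exact push_mem (U := Aᶜ) (V := (γ • A)ᶜ) (fun p hp hp' => hp (smul_mem_smul_set_iff.1 hp')) h0

/-- the cofaces of a set of cells -/
def Cf (R : FR G X) (k : Type) [Field k] (B : Set (X m)) : Set (X (m + 1)) :=
  {x | ∃ y ∈ B, bc k (R.de m) (single y 1) x ≠ 0}

theorem cf_finite {B : Set (X m)} (hB : B.Finite) : (Cf R k B).Finite :=
  (hB.biUnion fun y _ => (bc k (R.de m) (single y 1)).support.finite_toSet).subset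
    fun x ⟨y, hy, hx⟩ => mem_biUnion hy (by simpa using hx)

/-- the cells which are needed along `A` -/
def Gd (m : ℕ) (A : Set T) : Set (X (m + 1)) := Mt g (m + 1) A ∪ Cf R k (Mt g m A)

theorem gd_finite (m : ℕ) {A : Set T} (hA : IsCompact A) : (Gd g m A).Finite :=
  (mt_finite g _ hA).union (cf_finite (mt_finite g _ hA))

theorem gd_smul (γ : G) {A : Set T} {x : X (m + 1)} (hx : γ • x ∈ Gd g m (γ • A)) :
    x ∈ Gd g m A := by
  rcases hx with hx | ⟨y, hy, hx⟩
  · exact Or.inl (mt_smul g γ hx)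
  · refine Or.inr ⟨γ⁻¹ • y, mt_smul g γ (by rwa [smul_inv_smul]), ?_⟩
    rwa [bc_apply, FR.de_single, ← R.d_smul m γ, smul_inv_smul, ← FR.de_single, ← bc_apply]

theorem gd_mono {A B : Set T} (hAB : A ⊆ B) : Gd g m A ⊆ Gd g m B := by
  have : ∀ n, Mt g n A ⊆ Mt g n B := fun n x hx h0 =>
    hx (ch_mono (compl_subset_compl.2 hAB) h0)
  exact union_subset_union (this _) fun x ⟨y, hy, hx⟩ => ⟨y, this _ hy, hx⟩

end

/-- a locally finite cycle of the cellular complex -/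
def LFc (R : FR G X) (c : X (m + 1) → k) : Prop :=
  ∀ φ : X m →₀ k, Finsupp.linearCombination k c (bc k (R.de m) φ) = 0

theorem LFc.d_cutc {c : X (m + 1) → k} (hc : LFc R c) {F : Finset (X (m + 1))} {B : Set (X m)}
    (hF : Cf R k B ⊆ F) {y : X m} (hy : y ∈ B) : bc k (R.d m) (cutc c F) y = 0 := by
  have := pr_de R m (single y 1) (cutc c F)
  rw [pr_cutc c fun x hx => hF ⟨y, hy, hx⟩, hc, pr_comm, pr_single, one_mul] at this
  exact this.symm

variable (g : Mp (cell R k L) (h.sing k)) {c : X (m + 1) → k} (hc : LFc R c)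

theorem bd_g (n : ℕ) (w : X (n + 1) →₀ k) : bd k (g.f (n + 1) w) = g.f n (bc k (R.d n) w) :=
  g.ch n w

include hc in
theorem rc_cutc {A : Set T} {F : Finset (X (m + 1))} (hF : Gd g m A ⊆ F) :
    bd k (g.f (m + 1) (cutc c F)) ∈ (On Aᶜ).ch k m := by
  rw [bd_g]
  exact g_mem_of g fun y hy hy' => hy (hc.d_cutc (subset_union_right.trans hF) hy')

theorem sub_cutc (c : X (m + 1) → k) {A : Set T} {F F' : Finset (X (m + 1))} (hF : Gd g m A ⊆ F)
    (hF' : Gd g m A ⊆ F') :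
    g.f (m + 1) (cutc c F) - g.f (m + 1) (cutc c F') ∈ (On Aᶜ).ch k (m + 1) := by
  rw [← map_sub]
  refine g_mem_of g fun x hx hx' => hx ?_
  rw [Finsupp.sub_apply, cutc_apply, cutc_apply, if_pos (show x ∈ F from hF (Or.inl hx')),
    if_pos (show x ∈ F' from hF' (Or.inl hx')), sub_self]

open Classical in
/-- the finite set of needed cells -/
def gdF (m : ℕ) (A : Set T) : Finset (X (m + 1)) :=
  if h : (Gd g m A).Finite then h.toFinset else ∅

theorem gd_sub {A : Set T} (hA : IsCompact A) : Gd g m A ⊆ gdF g m A := by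
  rw [gdF, dif_pos (gd_finite g m hA)]; simp

/-- **the orientation** -/
def ori : Ori k m T where
  μ A := g.f (m + 1) (cutc c (gdF g m A))
  rc _ hA := rc_cutc g hc (gd_sub g hA)
  cmp _ _ hA hB hAB := ch_le_Nul (sub_cutc g c ((gd_mono g hAB).trans (gd_sub g hB)) (gd_sub g hA))

theorem ori_fund {A : Set T} (hA : IsCompact A) {F : Finset (X (m + 1))} (hF : Gd g m A ⊆ F) :
    (ori g hc).Fund A (g.f (m + 1) (cutc c F)) :=
  ⟨rc_cutc g hc hF, ch_le_Nul (sub_cutc g c hF (gd_sub g hA))⟩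

/-- evaluation of a compactly supported cocycle on the fundamental class, in terms of cells -/
theorem ori_ev {V : Type} [AddCommGroup V] [Module k V] {A : Set T} (hA : IsCompact A)
    {z : Ch k (m + 1) T} (hz : (ori g hc).Fund A z) {φ : Co V (m + 1) T}
    (hφ : φ ∈ (On Aᶜ).van k V (m + 1)) (h0 : cob k φ = 0) {F : Finset (X (m + 1))}
    (hF : Mt g (m + 1) A ⊆ F) :
    ev k φ z = ∑ x ∈ F, c x • ev k φ (g.f (m + 1) (single x 1)) := by
  classical
  rw [hz.ev_eq (ori_fund g hc hA (F := F ∪ gdF g m A)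
    ((gd_sub g hA).trans (by simp))) hφ h0, cutc, map_sum, map_sum]
  rw [← Finset.sum_subset (Finset.subset_union_left (s₁ := F) (s₂ := gdF g m A))]
  · refine Finset.sum_congr rfl fun x _ => ?_
    rw [← map_smul, ← map_smul, Finsupp.smul_single, smul_eq_mul, mul_one]
  · intro x _ hx
    refine Sb.ev_eq_zero hφ (g_mem_of g fun y hy hy' => hx ?_)
    have : y = x := by
      by_contra e
      exact hy (Finsupp.single_eq_of_ne e)
    exact hF (this ▸ hy')

/-- **invariance** -/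
theorem ori_smul (hi : ∀ (γ : G) x, c (γ • x) = c x) (γ : G) {A : Set T} (hA : IsCompact A)
    {z : Ch k (m + 1) T} (hz : (ori g hc).Fund A z) :
    (ori g hc).Fund (γ • A) (push k (Uc.tr γ) z) := by
  classical
  have hm : MapsTo (Uc.tr γ : C(T, T)) Aᶜ (γ • A)ᶜ := fun p hp hp' =>
    hp (smul_mem_smul_set_iff.1 hp')
  have h1 := ori_fund g hc (hA.smul γ) (F := (gdF g m A).image (γ • ·)) fun x hx => by
    have : γ⁻¹ • x ∈ gdF g m A := gd_sub g hA (gd_smul g γ (by rwa [smul_inv_smul]))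
    exact Finset.mem_coe.2 (Finset.mem_image.2 ⟨_, this, smul_inv_smul γ x⟩)
  have h2 : cutc c ((gdF g m A).image (γ • ·)) = tr k γ (cutc c (gdF g m A)) := by
    rw [cutc, cutc, map_sum, Finset.sum_image fun x _ y _ e => MulAction.injective γ e]
    simp only [tr_single, hi]
  rw [h2, g.eqv, tr_eq_push] at h1
  refine ⟨by rw [bd_push]; exact push_mem hm hz.rc, ?_⟩
  obtain ⟨b, hb⟩ := mem_Nul.1 hz.eq
  have h3 : push k (Uc.tr γ) z - push k (Uc.tr γ) ((ori g hc).μ A) ∈ Nul k (γ • A)ᶜ (m + 1) :=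
    mem_Nul.2 ⟨push k (Uc.tr γ) b, by
      rw [bd_push, ← map_sub, ← map_sub]; exact push_mem hm hb⟩
  have := Submodule.add_mem _ h3 h1.eq
  rwa [show (ori g hc).μ A = g.f (m + 1) (cutc c (gdF g m A)) from rfl, sub_add_sub_cancel] at this

/-- the pull back of a finitely supported cellular cochain -/
def fsh (f : Mp (h.sing k) (cell R k L)) (a : X n →₀ k) : Co k n T :=
  fun σ => pr k a (f.f n (sg k σ))

theorem ev_fsh (f : Mp (h.sing k) (cell R k L)) (a : X n →₀ k) (z : Ch k n T) :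
    ev k (fsh f a) z = pr k a (f.f n z) :=
  (map_eq_ev (pr k a ∘ₗ f.f n) z).symm

theorem cob_fsh (f : Mp (h.sing k) (cell R k L)) (a : X n →₀ k) :
    cob k (fsh f a) = fsh f (bc k (R.de n) a) := by
  funext σ
  rw [← ev_sg (k := k) (cob k _), ← ev_bd, ev_fsh, fsh, pr_de]
  exact congrArg (pr k a) (f.ch n (sg k σ)).symm

/-- the class of the family is not zero -/
theorem ori_ne (f : Mp (h.sing k) (cell R k L)) (H : Ht (f.comp g) (Mp.id _)) {a : X (m + 1) →₀ k}
    (h0 : bc k (R.de (m + 1)) a = 0) : ∃ (A : Set T) (φ : Co k (m + 1) T), IsCompact A ∧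
      φ ∈ (On Aᶜ).van k k (m + 1) ∧ cob k φ = 0 ∧
      ev k φ ((ori g hc).μ A) = Finsupp.linearCombination k c a := by
  classical
  obtain ⟨S1, h1, -, h2⟩ := (f.ctl (m + 1)).unif (f.eqv (m + 1)) h.nb_finite
  have hA : IsCompact (sat (L.l (m + 1) '' (a.support : Set (X (m + 1))) * S1⁻¹) K0) :=
    isCompact_sat ((a.support.finite_toSet.image _).mul h1.inv) h.cpt
  set A := sat (L.l (m + 1) '' (a.support : Set (X (m + 1))) * S1⁻¹) K0 with hAd
  have hc0 : cob k (fsh f a) = 0 := by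
    rw [cob_fsh, h0]; funext σ; simp [fsh, pr]
  obtain ⟨ψ, hψ, hψ'⟩ := smVanS_holds k k T Aᶜ (FD.cvr G K0) FD.cvr_open (h.cvr_cover _) m (fsh f a)
    (by rw [Sb.mem_Z, hc0]; exact Submodule.zero_mem _) fun σ hσ => by
      refine pr_eq_zero fun x hx => ?_
      by_contra ha
      obtain ⟨u, ⟨p, hp, hu⟩, s, hs, e⟩ :=
        L.mem_W.1 (h2 _ _ (h.small_le_Ws k Aᶜ (Sb.sg_mem hσ))).1 x hx
      exact hp ⟨u, ⟨_, ⟨x, by simpa using ha, rfl⟩, s⁻¹, by simpa using hs, by simp [← e]⟩, hu⟩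
  have hφ : fsh f a - cob k ψ ∈ (On Aᶜ).van k k (m + 1) := by
    simpa using Submodule.neg_mem _ hψ
  have hφ0 : cob k (fsh f a - cob k ψ) = 0 := by simp [hc0]
  refine ⟨A, _, hA, hφ, hφ0, ?_⟩
  obtain ⟨S2, h3, h4⟩ := pr_far L (H.eqv m) (H.ctl m) (finite_singleton 1) a
  obtain ⟨S3, h5, h6⟩ := g_mem g m
  obtain ⟨S4, h7, h8⟩ := pr_far L (f.eqv (m + 1)) (f.ctl (m + 1)) h5 a
  have hB := L.fin R m (h3.union h7)
  let F : Finset (X (m + 1)) := gdF g m A ∪ a.support ∪ (cf_finite (R := R) (k := k) hB).toFinset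
  have hF := ori_fund g hc hA (F := F) ((gd_sub g hA).trans fun x hx => by simp [F, hx])
  have hd : bc k (R.d m) (cutc c F) ∈ Finsupp.supported k k {y | L.l m y ∉ S2 ∪ S4} :=
    (Finsupp.mem_supported k _).2 fun y hy hy' => Finsupp.mem_support_iff.1 hy
      (hc.d_cutc (B := {y | L.l m y ∈ S2 ∪ S4}) (fun x hx => by
        simp only [F, Finset.coe_union, Finite.coe_toFinset]; exact Or.inr hx) hy')
  have hz : ∀ (Λ : (X m →₀ k) →ₗ[k] k), (∀ y, L.l m y ∉ S2 ∪ S4 → Λ (single y 1) = 0) →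
      Λ (bc k (R.d m) (cutc c F)) = 0 := fun Λ hΛ => by
    rw [Finsupp.supported_eq_span_single] at hd
    exact (Submodule.span_le (p := LinearMap.ker Λ)).2 (by rintro _ ⟨y, hy, rfl⟩; exact hΛ y hy) hd
  have e1 : pr k a (H.h m (bc k (R.d m) (cutc c F))) = 0 :=
    hz (pr k a ∘ₗ H.h m) fun y hy => h4 _ (fun h => hy (Or.inl h)) _ (single_mem_lab L y 1)
  have e2 : ev k ψ (g.f m (bc k (R.d m) (cutc c F))) = 0 :=
    hz (ev k ψ ∘ₗ g.f m) fun y hy => Sb.ev_eq_zero (hψ' _ fun σ hσ =>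
      h8 _ (fun h => hy (Or.inr h)) _ (by
        rw [h.sing_P, h.W_eq']
        exact Sb.sg_mem (mem_On.2 ((mem_On.1 hσ).trans inter_subset_left)))) (h6 y)
  have e3 := H.hs m (cutc c F)
  have e4 : f.f (m + 1) (g.f (m + 1) (cutc c F)) = cutc c F +
      (bc k (R.d (m + 1)) (H.h (m + 1) (cutc c F)) + H.h m (bc k (R.d m) (cutc c F))) :=
    (eq_sub_iff_add_eq'.1 e3).symm
  rw [((ori g hc).fund_μ hA).ev_eq hF hφ hφ0, ev_sub, ← ev_bd, bd_g, e2, sub_zero, ev_fsh, e4,
    map_add, map_add, e1, ← pr_de, h0, pr_cutc c fun x hx => by simp [F, hx]]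
  simp [pr]

/-- **non zero local degree** -/
theorem ori_nd [T2Space T] [ChartedSpace (EE (m + 1)) T] {a : X (m + 1) →₀ k}
    (h0 : bc k (R.de (m + 1)) a = 0) (h1 : Finsupp.linearCombination k c a ≠ 0) :
    (ori g hc).ND := by
  have := gm_countable h.gm
  have := h.gm.pc
  obtain ⟨f⟩ := exists_mp (h.sing k) (cell R k L)
  obtain ⟨H⟩ := exists_ht (f.comp g) (Mp.id _)
  obtain ⟨A, φ, h2, h3, h4, h5⟩ := ori_ne g hc f H h0
  exact ndS_of smVanS_holds locS_holds k m T _ A φ h2 h3 h4 (h5 ▸ h1)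

/-- the locally finite fundamental cycle of a Poincaré duality complex -/
theorem exists_lfc (hp : R.PD) (k : Type) [Field k] : ∃ c : X 4 → k, LFc (m := 3) R c ∧
    (∀ (γ : G) x, c (γ • x) = c x) ∧ (∃ a, Finsupp.linearCombination k c a = 1) ∧
    ∀ a : X 4 →₀ k, bc k (R.de 4) a = 0 := by
  obtain ⟨s, h1, h2, h3⟩ := hp.s
  have e : ∀ a : X 4 →₀ ℤ, Finsupp.linearCombination k (fun x => (s (single x 1) : k)) (rd k a) =
      (s a : k) := fun a => by
    induction a using Finsupp.induction_linear with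
    | zero => simp
    | add a b ha hb => simp only [map_add, ha, hb, Int.cast_add]
    | single x r =>
      rw [rd_single, Finsupp.linearCombination_single, ← mul_one r, ← smul_eq_mul r,
        ← Finsupp.smul_single, map_zsmul]
      simp
  refine ⟨fun x => (s (single x 1) : k), fun φ => ?_, fun γ x => by simp only [h3], ?_, fun a => ?_⟩
  · exact ext_rd (S := Finsupp.linearCombination k (fun x => (s (single x 1) : k)) ∘ₗ bc k (R.de 3))
      (T := 0) (fun c => by simp [bc_rd, e, h1.apply_apply_eq_zero]) φ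
  · obtain ⟨a, ha⟩ := h2 1
    exact ⟨rd k a, by rw [e, ha, Int.cast_one]⟩
  · exact ext_rd (S := bc k (R.de 4)) (T := 0) (fun c => by simp [bc_rd, hp.h4]) a

/-- **an invariant orientation of the universal cover** -/
theorem exists_ori {R : FR G X} (hp : R.PD) {K0 : Set T} (h : FD 4 G K0) (k : Type) [Field k] :
    ∃ O : Ori k 3 T, O.ND ∧ ∀ (γ : G) (A : Set T) z, IsCompact A → O.Fund A z →
      O.Fund (γ • A) (push k (Uc.tr γ) z) := by
  have := gm_countable h.gm
  have := h.gm.t2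
  obtain ⟨ch⟩ := h.gm.chart
  obtain ⟨L⟩ := nonempty_lab R
  obtain ⟨g⟩ := exists_mp (cell R k L) (h.sing k)
  obtain ⟨c, h1, h2, ⟨a, h3⟩, h4⟩ := exists_lfc hp k
  exact ⟨ori g h1, ori_nd g h1 (h4 a) (by rw [h3]; exact one_ne_zero),
    fun γ A z hA hz => ori_smul g h1 h2 γ hA hz⟩

end Crest.Agent.N255.Gs

end
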