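import Crest.Agent.N255.Gs.Kill
import Crest.Agent.N255.Gs.Ori
import Crest.Agent.N255.Tp.All

/-!
# Row 255, block D (helper89): open sets of the manifold which lie over a set of cells with the
compactly supported cohomology of Euclidean space are pro-acyclic
-/

set_option autoImplicit false
open Set Filter Topology
open scoped Pointwise

noncomputable section

namespace Crest.Agent.N255.Tp

variable {Y : Type} [TopologicalSpace Y] {n : ℕ} {U V U' V' : Set Y}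

section ring

variable {k : Type} [CommRing k] {A : Type} [AddCommGroup A] [Module k A]

theorem Acy.mono (h : Acy k U V) (hU : U' ⊆ U) (hV : V ⊆ V') : Acy k U' V' :=
  fun n _ hc => B_mono hV (h n ⟨ch_mono hU hc.1, hc.2⟩)

theorem Acy.bd (h : Acy k U V) {c : Ch k (n + 1) Y} (hc : c ∈ (On U).ch k (n + 1))
    (h0 : bd k c = 0) : c ∈ (On V).B k (n + 1) := h (n + 1) ⟨hc, h0⟩

theorem Acy.aug (h : Acy k U V) {c : Ch k 0 Y} (hc : c ∈ (On U).ch k 0) (h0 : aug k c = 0) :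
    c ∈ (On V).B k 0 := h 0 ⟨hc, h0⟩

/-- closed `0`-cochains are constant -/
theorem Acy.const (h : Acy k U V) {φ : Co A 0 Y} (hφ : φ ∈ (On V).Z k A 0) {σ τ : Sx 0 Y}
    (hσ : range σ ⊆ U) (hτ : range τ ⊆ U) : φ σ = φ τ := by
  have := Sb.ev_B hφ (h.aug (sub_mem (Sb.sg_mem (P := On U) hσ) (Sb.sg_mem (P := On U) hτ))
    (by rw [map_sub, aug_sg, aug_sg, sub_self]))
  rwa [map_sub, ev_sg, ev_sg, sub_eq_zero] at this

end ring

variable {k : Type} [Field k] {A : Type} [AddCommGroup A] [Module k A]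

/-- closed cochains become exact -/
theorem Acy.ex (h : Acy k U V) : (On V).Z k A (n + 1) ≤ (On U).Ex k A (n + 1) := fun φ hφ =>
  Det.ex_of_cyc (On U) φ fun _ hc h0 => Sb.ev_B hφ (h.bd hc h0)

theorem Acy.prim (h : Acy k U V) {φ : Co A (n + 1) Y} (hφ : φ ∈ (On V).Z k A (n + 1)) :
    ∃ ψ : Co A n Y, φ - cob k ψ ∈ (On U).van k A (n + 1) := Sb.mem_Ex.1 (h.ex hφ)

variable [T2Space Y] {d : ℕ} [ChartedSpace (EE (d + 1)) Y] {O : Ori k d Y}

/-- no top dimensional homology -/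
theorem top_van (hO : O.ND) (h0 : ∀ φ ∈ Cc k (univ : Set Y) k 0, cob k φ = 0 → φ = 0)
    (hU : IsOpen U) {c : Ch k (d + 1) Y} (hc : c ∈ (On U).ch k (d + 1)) (hb : bd k c = 0) :
    c ∈ (On U).B k (d + 1) := by
  obtain ⟨φ, hφ, h1, h2⟩ := (pdS_holds k d Y O hO _ (capS_holds k Y).1 U hU).1 0 (d + 1)
    (zero_add _) c hc hb
  obtain rfl := h0 φ (Cc_mono (subset_univ _) hφ) h1
  simpa using Ori.Du.unique smChS_holds fundS_holds (capS_holds k Y).1 (zero_add _) hU h2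
    Ori.du_zero h1

/-- **no homology from the dimension on** -/
theorem hi_van (hO : O.ND) (h0 : ∀ φ ∈ Cc k (univ : Set Y) k 0, cob k φ = 0 → φ = 0)
    (hU : IsOpen U) : ∀ m, d ≤ m → ∀ c ∈ (On U).ch k (m + 1), bd k c = 0 →
      c ∈ (On U).B k (m + 1) := by
  refine openIndS_holds (d + 1) Y (fun W => ∀ m, d ≤ m → ∀ c ∈ (On W).ch k (m + 1), bd k c = 0 →
    c ∈ (On W).B k (m + 1)) (fun m _ c hc _ => ?_) (fun j hj m _ c hc h => ?_)
    (fun U V hU hV a b ab m hm c hc h => ?_) (fun 𝒰 hne ho hd m hm c hc h => ?_) U hU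
  · rw [eq_zero_of_ch_empty hc]; exact zero_mem _
  · exact (cellS_holds k Y (d + 1) j hj.isEmbedding).bd hc h
  · rcases hm.eq_or_lt with rfl | hm
    · exact top_van hO h0 (hU.union hV) hc h
    obtain ⟨m, rfl⟩ : ∃ m', m = m' + 1 := ⟨m - 1, by omega⟩
    obtain ⟨x, hx, y, hy, e⟩ := split_ch smChS_holds hU hV hc (by rw [h]; exact zero_mem _)
    have e0 : bd k x + bd k y = 0 := by
      have : bd k (c - (x + y)) = 0 := Sb.B_le_cyc e
      rwa [map_sub, h, zero_sub, neg_eq_zero, map_add] at this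
    obtain ⟨w, hw, e1⟩ := ab m (by omega) (bd k x) (by
      rw [ch_inter]
      exact ⟨Sb.bd_mem hx, (eq_neg_of_add_eq_zero_left e0) ▸ neg_mem (Sb.bd_mem hy)⟩) (bd_bd x)
    have h1 := a (m + 1) (by omega) (x - w) (sub_mem hx (ch_mono inter_subset_left hw))
      (by rw [map_sub, e1, sub_self])
    have h2 := b (m + 1) (by omega) (y + w) (add_mem hy (ch_mono inter_subset_right hw))
      (by rw [map_add, e1, add_comm (bd k y), e0])
    have := add_mem e (add_mem (B_mono subset_union_left h1) (B_mono subset_union_right h2))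
    rwa [show c - (x + y) + (x - w + (y + w)) = c by abel] at this
  · obtain ⟨W, hW, h1⟩ := Ori.cpt_dir hne (fun U hU => (ho U hU).1) hd (isCompact_car c)
      (mem_ch_iff_car.1 hc)
    exact B_mono (subset_sUnion_of_mem hW) ((ho W hW).2 m hm c (mem_ch_iff_car.2 h1) h)

/-- a cycle whose dual classes die in `V` bounds in `V` -/
theorem bounds_of_du (hO : O.ND) (hU : IsOpen U) (hV : IsOpen V) (hUV : U ⊆ V) {i j : ℕ}
    (hij : i + j = d) {c : Ch k j Y} (hc : c ∈ (On U).ch k j) (h0 : c ∈ cyc k Y j)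
    (h : ∀ φ : Co k (i + 1) Y, cob k φ = 0 → O.Du (fun j _ φ => cap j φ) U φ c →
      ∃ ψ ∈ Cc k V k i, cob k ψ = φ) : c ∈ (On V).B k j := by
  obtain ⟨φ, -, h1, h2⟩ := (pdS_holds k d Y O hO _ (capS_holds k Y).1 U hU).1 (i + 1) j
    (by omega) c hc h0
  obtain ⟨ψ, hψ, rfl⟩ := h φ h1 h2
  simpa using Ori.Du.unique smChS_holds fundS_holds (capS_holds k Y).1 (by omega) hV (h2.mono hUV)
    (Ori.du_cob fundS_holds (capS_holds k Y).1 hij hV hψ) h1

end Crest.Agent.N255.Tp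

namespace Crest.Agent.N255.Gs

open Crest.Agent.N255.Tp Crest.Agent.N255.Uc Crest.Agent.N255.Gc

variable {G T : Type} [Group G] [TopologicalSpace T] [MulAction G T] [ContinuousConstSMul G T]
  {d m : ℕ} {K₀ : Set T} {X : ℕ → Type} [∀ n, MulAction G (X n)] {k : Type} [Field k]
  {R : FR G X} {L : Lab G X} {h : FD d G K₀}
  {f : Mp (h.sing k) (cell R k L)} {g : Mp (cell R k L) (h.sing k)}

/-- killing of one cocycle -/
theorem hc_gs (H : Ht (g.comp f) (Mp.id (h.sing k))) (n : ℕ) : ∃ S : Set G, S.Finite ∧ 1 ∈ S ∧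
    ∀ (U U' : Set G) (K : Set T), IsCompact K → K ⊆ sat U K₀ →
      ∀ φ ∈ (On Kᶜ).van k k (n + 1), cob k φ = 0 → gs g φ ∈ (L.P (n + 1)).W k (U * S) ∧
        ∀ b ∈ (L.P n).W k U', bc k (R.de n) b = gs g φ →
          ∀ V : Set T, sat ((U ∪ U') * S) K₀ ⊆ V → ∃ ψ ∈ Cc k V k n, cob k ψ = φ := by
  obtain ⟨S1, f1, h1⟩ := gs_mem g (n + 1)
  obtain ⟨S2, f2, h2⟩ := fs_van f n
  obtain ⟨S3, f3, h3⟩ := decomp H n
  let M := shs G K₀ K₀
  have fM : M.Finite := h.nb_finite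
  refine ⟨{1} ∪ (M * S1 ∪ (S2 ∪ M * S3)), (finite_singleton 1).union
    ((fM.mul f1).union (f2.union (fM.mul f3))), Or.inl rfl, fun U U' K hK hKU φ hφ h0 => ?_⟩
  have hs : shs G K₀ K ⊆ U * M := (shs_mono hKU).trans (shs_sat U K₀)
  have fK := h.gm.shs_finite h.cpt hK
  refine ⟨(L.P (n + 1)).W_mono (by
    refine (mul_subset_mul_right hs).trans ?_
    rw [mul_assoc]
    exact mul_subset_mul_left fun x hx => Or.inr (Or.inl hx)) (h1 K hK φ hφ),
    fun b hb e W hW => ?_⟩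
  obtain ⟨V, fV, hV, hb'⟩ := exists_W_fin L hb
  obtain ⟨η, hη, e'⟩ := h3 K hK φ hφ h0
  refine ⟨fs f n b + η, ⟨(K ∪ sat (shs G K₀ K * S3) K₀) ∪ sat (V * S2) K₀,
    (hK.union (isCompact_sat (fK.mul f3) h.cpt)).union (isCompact_sat (fV.mul f2) h.cpt),
    (union_subset (union_subset (hKU.trans (sat_mono ?_ Subset.rfl)) (sat_mono ?_ Subset.rfl))
      (sat_mono ?_ Subset.rfl)).trans hW,
    add_mem (van_supp subset_union_right (h2 V b hb')) (van_supp subset_union_left hη)⟩, ?_⟩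
  · exact fun x hx => ⟨x, Or.inl hx, 1, Or.inl rfl, mul_one x⟩
  · refine (mul_subset_mul_right hs).trans ?_
    rw [mul_assoc]
    exact mul_subset_mul subset_union_left fun x hx => Or.inr (Or.inr (Or.inr hx))
  · exact mul_subset_mul (hV.trans subset_union_right) fun x hx => Or.inr (Or.inr (Or.inl hx))
  · rw [map_add, cob_fs, e]; exact e'.symm

variable {c : X (m + 1) → k}

/-- the value of a cocycle on the fundamental class, on the cells -/
theorem lc_gs (hc : LFc R c) {K : Set T} (hK : IsCompact K) {φ : Co k (m + 1) T}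
    (hφ : φ ∈ (On Kᶜ).van k k (m + 1)) (h0 : cob k φ = 0) {z : Ch k (m + 1) T}
    (hz : (ori g hc).Fund K z) : Finsupp.linearCombination k c (gs g φ) = ev k φ z := by
  classical
  rw [hz.ev_eq (ori_fund g hc hK (F := gdF g m K ∪ (gs g φ).support)
    ((gd_sub g hK).trans (by simp))) hφ h0, ← pr_gs g hK hφ, pr_cutc c fun x hx => by simp [hx]]

/-- the compactly supported cellular cohomology over `U` is, after passing to `U'`, that of Euclidean
space of dimension `m + 1` -/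
structure Euc (R : FR G X) (L : Lab G X) (c : X (m + 1) → k) (U U' : Set G) : Prop where
  mid : ∀ n, n < m → ∀ a ∈ (L.P (n + 1)).W k U, bc k (R.de (n + 1)) a = 0 →
    ∃ b ∈ (L.P n).W k U', bc k (R.de n) b = a
  top : ∀ a ∈ (L.P (m + 1)).W k U, bc k (R.de (m + 1)) a = 0 →
    Finsupp.linearCombination k c a = 0 → ∃ b ∈ (L.P m).W k U', bc k (R.de m) b = a

theorem Euc.mono {U U' V V' : Set G} (e : Euc R L c U U') (hU : V ⊆ U) (hV : U' ⊆ V') :
    Euc R L c V V' :=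
  ⟨fun n hn a ha h0 => (e.mid n hn a ((L.P _).W_mono hU ha) h0).imp fun _ hb =>
      ⟨(L.P _).W_mono hV hb.1, hb.2⟩,
    fun a ha h0 h1 => (e.top a ((L.P _).W_mono hU ha) h0 h1).imp fun _ hb =>
      ⟨(L.P _).W_mono hV hb.1, hb.2⟩⟩

/-- no compactly supported `0`-cocycles -/
theorem no_c0 (H : Ht (g.comp f) (Mp.id (h.sing k)))
    (hk : ∀ a : X 0 →₀ k, bc k (R.de 0) a = 0 → a = 0) :
    ∀ φ ∈ Cc k (univ : Set T) k 0, cob k φ = 0 → φ = 0 :=
  fun _ ⟨_, hK, _, hφ⟩ h0 => hc_kill_zero H hk hK hφ h0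

/-- **far sets are pro-acyclic** -/
theorem acy_of_cells [T2Space T] [ChartedSpace (EE (m + 1)) T]
    (H : Ht (g.comp f) (Mp.id (h.sing k))) (hc : LFc R c) (hO : (ori g hc).ND)
    (hk : ∀ a : X 0 →₀ k, bc k (R.de 0) a = 0 → a = 0) : ∃ S : Set G, S.Finite ∧ 1 ∈ S ∧
    ∀ U U' : Set G, Euc R L c (U * S) U' → ∀ V V' : Set T, IsOpen V → V ⊆ sat U K₀ → IsOpen V' →
      sat ((U ∪ U') * S) K₀ ⊆ V' → Acy k V V' := by
  choose S f1 h1 h2 using hc_gs H
  have hS : ∀ n, n ≤ m → S n ⊆ ⋃ n ∈ Iic m, S n := fun n hn => subset_biUnion_of_mem (u := S) hn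
  refine ⟨⋃ n ∈ Iic m, S n, (finite_Iic m).biUnion fun n _ => f1 n, hS m le_rfl (h1 m),
    fun U U' e V V' hV hVU hV' hU' j z hz => ?_⟩
  have hVV : V ⊆ V' := hVU.trans (Subset.trans (sat_mono (fun x hx => mem_mul.2
    ⟨x, Or.inl hx, 1, hS m le_rfl (h1 m), mul_one x⟩) Subset.rfl) hU')
  have hs : ∀ n, n ≤ m → sat ((U ∪ U') * S n) K₀ ⊆ V' := fun n hn =>
    (sat_mono (mul_subset_mul_left (hS n hn)) Subset.rfl).trans hU'
  rcases j with _ | j
  · refine bounds_of_du hO hV hV' hVV (add_zero m) hz.1 trivial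
      fun φ h0 ⟨K, w, a1, a2, a3, _, a5, a6⟩ => ?_
    obtain ⟨b1, b2⟩ := h2 m U U' K a1 (a2.trans hVU) φ a3 h0
    obtain ⟨b, hb, e'⟩ := e.top _ ((L.P _).W_mono (mul_subset_mul_left (hS m le_rfl)) b1)
      (by rw [de_gs g a1 a3, h0, gs_zero]) (by
        obtain ⟨y, -, hy⟩ := a6
        have := congrArg (aug k) hy
        rw [aug_bd, map_sub, show aug k z = 0 from hz.2, sub_zero, (capS_holds k T).1.aug] at this
        rw [lc_gs hc a1 a3 h0 a5, ← this])
    exact b2 b hb e' V' (hs m le_rfl)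
  rcases lt_or_ge j m with hj | hj
  · refine bounds_of_du (i := m - (j + 1)) hO hV hV' hVV (by omega) hz.1 hz.2
      fun φ h0 ⟨K, w, a1, a2, a3, _⟩ => ?_
    obtain ⟨b1, b2⟩ := h2 _ U U' K a1 (a2.trans hVU) φ a3 h0
    obtain ⟨b, hb, e'⟩ := e.mid _ (by omega) _
      ((L.P _).W_mono (mul_subset_mul_left (hS _ (by omega))) b1)
      (by rw [de_gs g a1 a3, h0, gs_zero])
    exact b2 b hb e' V' (hs _ (by omega))
  · exact B_mono hVV (hi_van hO (no_c0 H hk) hV j hj z hz.1 hz.2)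

end Crest.Agent.N255.Gs

end
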