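import Mathlib

/-!
# Row 255, block D (helper58): free `G`-complexes with shadows, controlled equivariant maps
-/

set_option autoImplicit false
open Set Finsupp
open scoped Pointwise

noncomputable section

namespace Crest.Agent.N255.Gs

/-- a free `G`-set with shadows in `G` -/
structure Sh (G : Type) [Group G] (A : Type) [MulAction G A] where
  sh : A → Set G
  fin : ∀ a, (sh a).Finite
  ne : ∀ a, (sh a).Nonempty
  smul : ∀ (g : G) a, sh (g • a) = g • sh a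
  free : ∀ (g : G) (a : A), g • a = a → g = 1

variable {G : Type} [Group G] {k : Type} [CommRing k]

/-- translation of chains -/
def tr (k : Type) [CommRing k] {A : Type} [MulAction G A] (g : G) : (A →₀ k) →ₗ[k] (A →₀ k) :=
  lmapDomain k k (g • ·)

section
variable {A B C : Type} [MulAction G A] [MulAction G B] [MulAction G C]

theorem tr_single (g : G) (a : A) (r : k) : tr k g (single a r) = single (g • a) r := by
  simp [tr]

theorem tr_eq (g : G) (c : A →₀ k) : tr k g c = mapDomain (g • ·) c := rfl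

theorem tr_one (c : A →₀ k) : tr k (1 : G) c = c := by
  induction c using Finsupp.induction_linear with
  | zero => simp
  | add a b ha hb => rw [map_add, ha, hb]
  | single a r => rw [tr_single, one_smul]

theorem tr_mul (g h : G) (c : A →₀ k) : tr k (g * h) c = tr k g (tr k h c) := by
  induction c using Finsupp.induction_linear with
  | zero => simp
  | add a b ha hb => simp only [map_add, ha, hb]
  | single a r => simp only [tr_single, mul_smul]

theorem tr_apply (g : G) (c : A →₀ k) (a : A) : tr k g c a = c (g⁻¹ • a) := by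
  conv_lhs => rw [← smul_inv_smul g a]
  exact mapDomain_apply (MulAction.injective g) c _

theorem tr_apply_smul (g : G) (c : A →₀ k) (a : A) : tr k g c (g • a) = c a := by
  rw [tr_apply, inv_smul_smul]

/-- chains with shadows in `S` -/
def Sh.W (P : Sh G A) (k : Type) [CommRing k] (S : Set G) : Submodule k (A →₀ k) :=
  supported k k {a | P.sh a ⊆ S}

theorem Sh.mem_W (P : Sh G A) {S : Set G} {c : A →₀ k} :
    c ∈ P.W k S ↔ ∀ a, c a ≠ 0 → P.sh a ⊆ S := by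
  simp [Sh.W, mem_supported, subset_def]

theorem Sh.W_mono (P : Sh G A) {S S' : Set G} (h : S ⊆ S') : P.W k S ≤ P.W k S' :=
  supported_mono fun _ ha => ha.trans h

theorem Sh.single_mem (P : Sh G A) {S : Set G} {a : A} (h : P.sh a ⊆ S) (r : k) :
    single a r ∈ P.W k S := single_mem_supported k r h

theorem Sh.tr_mem (P : Sh G A) {S : Set G} {c : A →₀ k} (h : c ∈ P.W k S) (g : G) :
    tr k g c ∈ P.W k (g • S) := by
  rw [P.mem_W] at h ⊢
  intro a ha
  rw [tr_apply] at ha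
  have := h _ ha
  rw [P.smul] at this
  intro x hx
  exact ⟨g⁻¹ * x, this ⟨x, hx, rfl⟩, by simp⟩

theorem Sh.exists_W (P : Sh G A) (c : A →₀ k) : ∃ S : Set G, S.Finite ∧ c ∈ P.W k S :=
  ⟨⋃ a ∈ (c.support : Set A), P.sh a, c.support.finite_toSet.biUnion fun a _ => P.fin a,
    P.mem_W.2 fun a ha => subset_biUnion_of_mem (u := P.sh) (by simpa using ha)⟩

/-- an equivariant label inside the shadow -/
theorem Sh.exists_lab (P : Sh G A) : ∃ l : A → G, (∀ a, l a ∈ P.sh a) ∧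
    ∀ (g : G) a, l (g • a) = g * l a := by
  let r : A → A := fun a => (Quotient.mk (MulAction.orbitRel G A) a).out
  have h1 : ∀ a, ∃ g : G, g • r a = a := fun a =>
    MulAction.orbitRel_apply.1 ((MulAction.orbitRel G A).symm (Quotient.mk_out a))
  have h2 : ∀ (g : G) a, r (g • a) = r a := fun g a =>
    congrArg Quotient.out (Quotient.sound (MulAction.orbitRel_apply.2 ⟨g, rfl⟩))
  choose u hu using h1
  refine ⟨fun a => u a * (P.ne (r a)).some, fun a => ?_, fun g a => ?_⟩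
  · have e : P.sh a = u a • P.sh (r a) := by rw [← P.smul, hu]
    rw [e]
    exact ⟨_, (P.ne (r a)).some_mem, rfl⟩
  · have e : u (g • a) = g * u a := by
      have := P.free ((g * u a)⁻¹ * u (g • a)) (r a) (by
        rw [mul_smul, inv_smul_eq_iff, mul_smul, hu, ← h2 g a, hu])
      exact (inv_mul_eq_one.1 this).symm
    simp only [e, h2, mul_assoc]

/-- the label -/
def Sh.lab (P : Sh G A) : A → G := P.exists_lab.choose

theorem Sh.lab_mem (P : Sh G A) (a : A) : P.lab a ∈ P.sh a := P.exists_lab.choose_spec.1 a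

theorem Sh.lab_smul (P : Sh G A) (g : G) (a : A) : P.lab (g • a) = g * P.lab a :=
  P.exists_lab.choose_spec.2 g a

/-- equivariant linear maps -/
def Eqv (G : Type) [Group G] {A B : Type} [MulAction G A] [MulAction G B]
    (F : (A →₀ k) →ₗ[k] (B →₀ k)) : Prop :=
  ∀ (g : G) c, F (tr k g c) = tr k g (F c)

theorem eqv_of {F : (A →₀ k) →ₗ[k] (B →₀ k)}
    (h : ∀ (g : G) a, F (single (g • a) 1) = tr k g (F (single a 1))) : Eqv G F := by
  intro g c
  induction c using Finsupp.induction_linear with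
  | zero => simp
  | add a b ha hb => simp only [map_add, ha, hb]
  | single a r =>
    rw [tr_single, ← mul_one r, ← smul_eq_mul, ← smul_single, ← smul_single, map_smul, map_smul,
      map_smul, h]

theorem Eqv.id : Eqv G (LinearMap.id : (A →₀ k) →ₗ[k] (A →₀ k)) := fun _ _ => rfl

theorem Eqv.comp {F : (A →₀ k) →ₗ[k] (B →₀ k)} {F' : (B →₀ k) →ₗ[k] (C →₀ k)} (h' : Eqv G F')
    (h : Eqv G F) : Eqv G (F' ∘ₗ F) := fun g c => by
  simp only [LinearMap.comp_apply, h g, h' g]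

theorem Eqv.sub {F F' : (A →₀ k) →ₗ[k] (B →₀ k)} (h : Eqv G F) (h' : Eqv G F') :
    Eqv G (F - F') := fun g c => by simp only [LinearMap.sub_apply, h g, h' g, map_sub]

/-- controlled linear maps -/
def Ctl (P : Sh G A) (Q : Sh G B) (F : (A →₀ k) →ₗ[k] (B →₀ k)) : Prop :=
  ∀ S : Set G, S.Finite → ∃ S' : Set G, S'.Finite ∧ ∀ c ∈ P.W k S, F c ∈ Q.W k S'

theorem map_mem_of {F : (A →₀ k) →ₗ[k] (B →₀ k)} {s : Set A} {N : Submodule k (B →₀ k)}
    (h : ∀ a ∈ s, F (single a 1) ∈ N) {c : A →₀ k} (hc : c ∈ supported k k s) : F c ∈ N := by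
  rw [supported_eq_span_single] at hc
  exact (Submodule.span_le (p := N.comap F)).2 (by rintro _ ⟨a, ha, rfl⟩; exact h a ha) hc

variable {P : Sh G A} {Q : Sh G B} {R : Sh G C}

theorem ctl_of {F : (A →₀ k) →ₗ[k] (B →₀ k)} (h : ∀ S : Set G, S.Finite → ∃ S' : Set G, S'.Finite ∧
    ∀ a, P.sh a ⊆ S → F (single a 1) ∈ Q.W k S') : Ctl P Q F := fun S hS =>
  (h S hS).imp fun _ h => ⟨h.1, fun _ hc => map_mem_of h.2 hc⟩

theorem Ctl.id : Ctl P P (LinearMap.id : (A →₀ k) →ₗ[k] (A →₀ k)) := fun S hS =>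
  ⟨S, hS, fun _ h => h⟩

theorem Ctl.comp {F : (A →₀ k) →ₗ[k] (B →₀ k)} {F' : (B →₀ k) →ₗ[k] (C →₀ k)} (h' : Ctl Q R F')
    (h : Ctl P Q F) : Ctl P R (F' ∘ₗ F) := fun S hS => by
  obtain ⟨S1, h1, h2⟩ := h S hS
  obtain ⟨S2, h3, h4⟩ := h' S1 h1
  exact ⟨S2, h3, fun c hc => h4 _ (h2 c hc)⟩

theorem Ctl.sub {F F' : (A →₀ k) →ₗ[k] (B →₀ k)} (h : Ctl P Q F) (h' : Ctl P Q F') :
    Ctl P Q (F - F') := fun S hS => by
  obtain ⟨S1, h1, h2⟩ := h S hS
  obtain ⟨S2, h3, h4⟩ := h' S hS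
  exact ⟨S1 ∪ S2, h1.union h3, fun c hc => Submodule.sub_mem _
    (Q.W_mono subset_union_left (h2 c hc)) (Q.W_mono subset_union_right (h4 c hc))⟩

/-- chains over `U` whose cells have size `S` -/
def Sh.Ws (P : Sh G A) (k : Type) [CommRing k] (S U : Set G) : Submodule k (A →₀ k) :=
  supported k k {a | (P.sh a ∩ U).Nonempty ∧ ∃ g : G, P.sh a ⊆ g • S}

/-- **control**: cells of bounded size move a bounded amount, uniformly, and stay of bounded size -/
theorem Ctl.unif {F : (A →₀ k) →ₗ[k] (B →₀ k)} (h : Ctl P Q F) (he : Eqv G F) {S : Set G}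
    (hS : S.Finite) : ∃ S' : Set G, S'.Finite ∧ (∀ (g : G), ∀ c ∈ P.W k (g • S), F c ∈ Q.W k (g • S')) ∧
      ∀ U : Set G, ∀ c ∈ P.Ws k S U, F c ∈ Q.W k (U * S') ∧ F c ∈ Q.Ws k S' (U * S') := by
  obtain ⟨S1, h1, h2⟩ := h S hS
  have h3 : ∀ (g : G), ∀ c ∈ P.W k (g • S), F c ∈ Q.W k (g • S1) := fun g c hc => by
    have := Q.tr_mem (h2 _ (by simpa using P.tr_mem hc g⁻¹)) g
    rwa [← he, ← tr_mul, mul_inv_cancel, tr_one] at this
  have h4 : ∀ (U : Set G) (a : A), (P.sh a ∩ U).Nonempty → ∀ g : G, P.sh a ⊆ g • S →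
      g • S1 ⊆ U * (S1 ∪ S⁻¹ * S1) := by
    rintro U a ⟨u, hu, hU⟩ g hg _ ⟨x, hx, rfl⟩
    obtain ⟨s, hs, rfl⟩ := hg hu
    exact ⟨_, hU, s⁻¹ * x, Or.inr ⟨s⁻¹, by simpa using hs, x, hx, rfl⟩, by simp⟩
  refine ⟨S1 ∪ S⁻¹ * S1, h1.union (hS.inv.mul h1), fun g c hc =>
    Q.W_mono (smul_set_mono subset_union_left) (h3 g c hc), fun U c hc => ⟨?_, ?_⟩⟩
  · refine map_mem_of (fun a ha => ?_) hc
    obtain ⟨hU, g, hg⟩ := ha
    exact Q.W_mono (h4 U a hU g hg) (h3 g _ (P.single_mem hg 1))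
  · refine map_mem_of (fun a ha => ?_) hc
    obtain ⟨hU, g, hg⟩ := ha
    refine supported_mono (fun b hb => ?_) (h3 g _ (P.single_mem hg 1))
    obtain ⟨x, hx⟩ := Q.ne b
    exact ⟨⟨x, hx, h4 U a hU g hg (hb hx)⟩, g, hb.trans (smul_set_mono subset_union_left)⟩

/-- uniform fillings -/
def UF (Q : Sh G B) (R : Sh G C) (d : (C →₀ k) →ₗ[k] (B →₀ k)) (Z : Submodule k (B →₀ k)) : Prop :=
  ∀ S : Set G, S.Finite → ∃ S' : Set G, S'.Finite ∧ ∀ c ∈ Q.W k S, c ∈ Z → ∃ b ∈ R.W k S', d b = c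

/-- **controlled equivariant filling** -/
theorem fill [Countable G] {d : (C →₀ k) →ₗ[k] (B →₀ k)} {Z : Submodule k (B →₀ k)}
    (hd : Eqv G d) (hU : UF Q R d Z) {z : (A →₀ k) →ₗ[k] (B →₀ k)} (he : Eqv G z) (hc : Ctl P Q z)
    (hz : ∀ c, z c ∈ Z) :
    ∃ F : (A →₀ k) →ₗ[k] (C →₀ k), Eqv G F ∧ Ctl P R F ∧ d ∘ₗ F = z := by
  classical
  obtain ⟨e, he'⟩ := exists_injective_nat G
  let E : ℕ → Set G := fun j => {g | e g ≤ j}
  have hE : ∀ j, (E j).Finite := fun j => (finite_Iic j).preimage he'.injOn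
  have hE' : ∀ S : Set G, S.Finite → ∃ j, S ⊆ E j := fun S hS => by
    obtain ⟨j, hj⟩ := (hS.image e).bddAbove
    exact ⟨j, fun g hg => hj ⟨g, hg, rfl⟩⟩
  have hEm : ∀ i j, i ≤ j → E i ⊆ E j := fun i j h g hg => le_trans hg h
  have h1 : ∀ a : A, ∃ j, ∃ b ∈ R.W k (E j), d b = z (single a 1) := fun a => by
    obtain ⟨S, hS, h⟩ := Q.exists_W (z (single a 1))
    obtain ⟨S', hS', h'⟩ := hU S hS
    obtain ⟨b, hb, hb'⟩ := h' _ h (hz _)
    obtain ⟨j, hj⟩ := hE' S' hS'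
    exact ⟨j, b, R.W_mono hj hb, hb'⟩
  choose b hb hb' using fun a => Nat.find_spec (h1 a)
  let F : (A →₀ k) →ₗ[k] (C →₀ k) :=
    linearCombination k fun a => tr k (P.lab a) (b ((P.lab a)⁻¹ • a))
  have hF : ∀ a, F (single a 1) = tr k (P.lab a) (b ((P.lab a)⁻¹ • a)) := fun a => by simp [F]
  refine ⟨F, eqv_of fun g a => ?_, ctl_of fun S hS => ?_, ?_⟩
  · rw [hF, hF, P.lab_smul, tr_mul, mul_inv_rev, mul_smul, inv_smul_smul]
  · obtain ⟨S1, h2, h3⟩ := hc (S⁻¹ * S) (hS.inv.mul hS)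
    obtain ⟨S2, h4, h5⟩ := hU S1 h2
    obtain ⟨j, hj⟩ := hE' S2 h4
    refine ⟨S * E j, hS.mul (hE j), fun a ha => ?_⟩
    have h6 : P.sh ((P.lab a)⁻¹ • a) ⊆ S⁻¹ * S := by
      rw [P.smul]
      rintro _ ⟨x, hx, rfl⟩
      exact ⟨_, by simpa using ha (P.lab_mem a), x, ha hx, rfl⟩
    obtain ⟨b', h7, h8⟩ := h5 _ (h3 _ (P.single_mem h6 1)) (hz _)
    have h9 : Nat.find (h1 ((P.lab a)⁻¹ • a)) ≤ j := Nat.find_min' _ ⟨b', R.W_mono hj h7, h8⟩
    rw [hF]
    refine R.W_mono ?_ (R.tr_mem (R.W_mono (hEm _ _ h9) (hb _)) (P.lab a))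
    rintro _ ⟨x, hx, rfl⟩
    exact ⟨_, ha (P.lab_mem a), x, hx, rfl⟩
  · refine lhom_ext' fun a => LinearMap.ext_ring ?_
    simp only [LinearMap.comp_apply, lsingle_apply]
    rw [hF, hd, hb', ← he, tr_single, smul_inv_smul]

end

/-- the sum of the coefficients -/
def au (k : Type) [CommRing k] (A : Type) : (A →₀ k) →ₗ[k] k := linearCombination k fun _ => 1

theorem au_single {A : Type} (a : A) (r : k) : au k A (single a r) = r := by simp [au]

/-- a uniformly acyclic free `G`-complex with shadows -/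
structure Cx (k : Type) [CommRing k] (G : Type) [Group G] (A : ℕ → Type)
    [∀ n, MulAction G (A n)] where
  P : ∀ n, Sh G (A n)
  d : ∀ n, (A (n + 1) →₀ k) →ₗ[k] (A n →₀ k)
  eqv : ∀ n, Eqv G (d n)
  ctl : ∀ n, Ctl (P (n + 1)) (P n) (d n)
  dd : ∀ n c, d n (d (n + 1) c) = 0
  aud : ∀ c, au k _ (d 0 c) = 0
  uf0 : UF (P 0) (P 1) (d 0) (LinearMap.ker (au k _))
  uf : ∀ n, UF (P (n + 1)) (P (n + 2)) (d (n + 1)) (LinearMap.ker (d n))
  ne : Nonempty (A 0)

variable {A B C : ℕ → Type} [∀ n, MulAction G (A n)] [∀ n, MulAction G (B n)]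
  [∀ n, MulAction G (C n)]

/-- controlled equivariant augmented chain maps -/
structure Mp (X : Cx k G A) (Y : Cx k G B) where
  f : ∀ n, (A n →₀ k) →ₗ[k] (B n →₀ k)
  eqv : ∀ n, Eqv G (f n)
  ctl : ∀ n, Ctl (X.P n) (Y.P n) (f n)
  ch : ∀ n c, Y.d n (f (n + 1) c) = f n (X.d n c)
  au : ∀ c, au k _ (f 0 c) = au k _ c

/-- identity -/
def Mp.id (X : Cx k G A) : Mp X X :=
  ⟨fun _ => LinearMap.id, fun _ => Eqv.id, fun _ => Ctl.id, fun _ _ => rfl, fun _ => rfl⟩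

/-- composition -/
def Mp.comp {X : Cx k G A} {Y : Cx k G B} {Z : Cx k G C} (g : Mp Y Z) (f : Mp X Y) : Mp X Z :=
  ⟨fun n => g.f n ∘ₗ f.f n, fun n => (g.eqv n).comp (f.eqv n), fun n => (g.ctl n).comp (f.ctl n),
    fun n c => by simp only [LinearMap.comp_apply, g.ch, f.ch],
    fun c => by simp only [LinearMap.comp_apply, g.au, f.au]⟩

/-- controlled equivariant homotopies -/
structure Ht {X : Cx k G A} {Y : Cx k G B} (f g : Mp X Y) where
  h : ∀ n, (A n →₀ k) →ₗ[k] (B (n + 1) →₀ k)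
  eqv : ∀ n, Eqv G (h n)
  ctl : ∀ n, Ctl (X.P n) (Y.P (n + 1)) (h n)
  h0 : ∀ c, Y.d 0 (h 0 c) = f.f 0 c - g.f 0 c
  hs : ∀ n c, Y.d (n + 1) (h (n + 1) c) + h n (X.d n c) = f.f (n + 1) c - g.f (n + 1) c

variable [Countable G]

theorem exists_mp (X : Cx k G A) (Y : Cx k G B) : Nonempty (Mp X Y) := by
  obtain ⟨y⟩ := Y.ne
  let f0 : (A 0 →₀ k) →ₗ[k] (B 0 →₀ k) := lmapDomain k k fun a => (X.P 0).lab a • y
  have hf0 : ∀ a r, f0 (single a r) = single ((X.P 0).lab a • y) r := fun a r => by simp [f0]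
  have e0 : Eqv G f0 := eqv_of fun g a => by rw [hf0, hf0, tr_single, Sh.lab_smul, mul_smul]
  have c0 : Ctl (X.P 0) (Y.P 0) f0 := ctl_of fun S hS =>
    ⟨S * (Y.P 0).sh y, hS.mul ((Y.P 0).fin y), fun a ha => by
      rw [hf0]
      refine (Y.P 0).single_mem ?_ 1
      rw [Sh.smul]
      rintro _ ⟨x, hx, rfl⟩
      exact ⟨_, ha ((X.P 0).lab_mem a), x, hx, rfl⟩⟩
  have a0 : ∀ c, au k _ (f0 c) = au k _ c := fun c => by
    induction c using Finsupp.induction_linear with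
    | zero => simp
    | add a b ha hb => simp only [map_add, ha, hb]
    | single a r => rw [hf0, au_single, au_single]
  obtain ⟨f1, e1, c1, d1⟩ := fill (P := X.P 1) (Y.eqv 0) Y.uf0 (e0.comp (X.eqv 0))
    (c0.comp (X.ctl 0)) fun c => by simp [a0, X.aud]
  let T : ℕ → Type := fun n => {f : (A (n + 1) →₀ k) →ₗ[k] (B (n + 1) →₀ k) //
    Eqv G f ∧ Ctl (X.P (n + 1)) (Y.P (n + 1)) f ∧ ∀ c, Y.d n (f (X.d (n + 1) c)) = 0}
  have st : ∀ n (f : T n), ∃ f' : T (n + 1), Y.d (n + 1) ∘ₗ f'.1 = f.1 ∘ₗ X.d (n + 1) := by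
    intro n f
    obtain ⟨f', e, c, h⟩ := fill (P := X.P (n + 2)) (Y.eqv (n + 1)) (Y.uf n)
      (f.2.1.comp (X.eqv (n + 1))) (f.2.2.1.comp (X.ctl (n + 1))) fun c => f.2.2.2 c
    exact ⟨⟨f', e, c, fun x => by
      have := LinearMap.congr_fun h (X.d (n + 2) x)
      simpa [X.dd] using this⟩, h⟩
  choose nx hnx using st
  let F : ∀ n, T n := fun n => Nat.rec (motive := T) ⟨f1, e1, c1, fun x => by
    have := LinearMap.congr_fun d1 (X.d 1 x)
    simpa [X.dd] using this⟩ nx n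
  refine ⟨⟨fun n => Nat.casesOn n f0 fun n => (F n).1, fun n => ?_, fun n => ?_, fun n c => ?_, a0⟩⟩
  · cases n with
    | zero => exact e0
    | succ n => exact (F n).2.1
  · cases n with
    | zero => exact c0
    | succ n => exact (F n).2.2.1
  · cases n with
    | zero => exact LinearMap.congr_fun d1 c
    | succ n => exact LinearMap.congr_fun (hnx n (F n)) c

theorem exists_ht {X : Cx k G A} {Y : Cx k G B} (f g : Mp X Y) : Nonempty (Ht f g) := by
  obtain ⟨h0, e0, c0, d0⟩ := fill (P := X.P 0) (Y.eqv 0) Y.uf0 ((f.eqv 0).sub (g.eqv 0))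
    ((f.ctl 0).sub (g.ctl 0)) fun c => by simp [f.au, g.au]
  let T : ℕ → Type := fun n => {h : (A n →₀ k) →ₗ[k] (B (n + 1) →₀ k) //
    Eqv G h ∧ Ctl (X.P n) (Y.P (n + 1)) h ∧
      ∀ c, Y.d n (h (X.d n c)) = f.f n (X.d n c) - g.f n (X.d n c)}
  have st : ∀ n (h : T n), ∃ h' : T (n + 1),
      Y.d (n + 1) ∘ₗ h'.1 = f.f (n + 1) - g.f (n + 1) - h.1 ∘ₗ X.d n := by
    intro n h
    obtain ⟨h', e, c, hh⟩ := fill (P := X.P (n + 1)) (Y.eqv (n + 1)) (Y.uf n)
      (((f.eqv (n + 1)).sub (g.eqv (n + 1))).sub (h.2.1.comp (X.eqv n)))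
      (((f.ctl (n + 1)).sub (g.ctl (n + 1))).sub (h.2.2.1.comp (X.ctl n)))
      fun c => by simp [f.ch, g.ch, h.2.2.2]
    exact ⟨⟨h', e, c, fun x => by
      have := LinearMap.congr_fun hh (X.d (n + 1) x)
      simpa [X.dd] using this⟩, hh⟩
  choose nx hnx using st
  let H : ∀ n, T n := fun n => Nat.rec (motive := T) ⟨h0, e0, c0, fun x =>
    LinearMap.congr_fun d0 (X.d 0 x)⟩ nx n
  refine ⟨⟨fun n => (H n).1, fun n => (H n).2.1, fun n => (H n).2.2.1,
    fun c => LinearMap.congr_fun d0 c, fun n c => ?_⟩⟩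
  have := LinearMap.congr_fun (hnx n (H n)) c
  simp only [LinearMap.comp_apply, LinearMap.sub_apply] at this
  exact eq_sub_iff_add_eq.1 this

end Crest.Agent.N255.Gs

end
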