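import Crest.Agent.N255.Gs.Sing
import Crest.Agent.N255.Gs.Cell

/-!
# Row 255, block D (helper89): transfer of compactly supported cohomology and of homology between
the cells and the manifold, with control of the supports
-/

set_option autoImplicit false
open Set Filter Topology
open scoped Pointwise

noncomputable section

namespace Crest.Agent.N255.Gs

open Crest.Agent.N255.Tp Crest.Agent.N255.Uc Crest.Agent.N255.Gc

variable {G T : Type} [Group G] [TopologicalSpace T] [MulAction G T] [ContinuousConstSMul G T]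
  {d : ℕ} {K₀ : Set T} {X : ℕ → Type} [∀ n, MulAction G (X n)] {k : Type} [Field k]

omit [TopologicalSpace T] [ContinuousConstSMul G T] in
theorem sat_sub_compl {V : Set G} {K : Set T} (h : ∀ g ∈ V, g ∉ shs G K₀ K) : sat V K₀ ⊆ Kᶜ :=
  fun x ⟨g, hg, hx⟩ hK => h g hg ⟨x, hK, hx⟩

omit [TopologicalSpace T] [ContinuousConstSMul G T] in
theorem shs_sat (U : Set G) (L : Set T) : shs G K₀ (sat U L) ⊆ U * shs G K₀ L := by
  rintro a ⟨x, ⟨g, hg, hx⟩, ha⟩
  exact ⟨g, hg, g⁻¹ * a, ⟨_, hx, by simpa [smul_smul] using ha⟩, mul_inv_cancel_left g a⟩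

omit [TopologicalSpace T] [ContinuousConstSMul G T] in
theorem shs_compl_sat (U : Set G) {a : G} (ha : a ∈ shs G K₀ (sat U K₀)ᶜ) : a ∉ U :=
  fun hU => let ⟨_, hx, h⟩ := ha; hx ⟨a, hU, h⟩

/-- subdivision into small simplices -/
def rh (G : Type) {T : Type} [Group G] [TopologicalSpace T] [MulAction G T] (K₀ : Set T) (k : Type)
    [CommRing k] (n : ℕ) : Ch k n T →ₗ[k] Ch k n T := Sml.rho k (FD.cvr G K₀) n

/-- its homotopy to the identity -/
def dh (G : Type) {T : Type} [Group G] [TopologicalSpace T] [MulAction G T] (K₀ : Set T) (k : Type)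
    [CommRing k] (n : ℕ) : Ch k n T →ₗ[k] Ch k (n + 1) T := Sml.DD k (FD.cvr G K₀) n

/-- cells to simplices: control over arbitrary sets of labels -/
theorem FD.cell_sing (h : FD d G K₀) (L : Lab G X) {n m : ℕ} {F : (X n →₀ k) →ₗ[k] Ch k m T}
    (he : Eqv G F) (hc : Ctl (L.P n) (h.shS m) F) : ∃ S : Set G, S.Finite ∧
      ∀ U : Set G, ∀ c ∈ (L.P n).W k U, F c ∈ (h.shS m).W k (U * S) := by
  obtain ⟨S, hS, h1, -⟩ := hc.unif he (finite_singleton 1)
  refine ⟨S, hS, fun U c hc => map_mem_of (fun a ha => ?_) hc⟩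
  refine (h.shS m).W_mono ?_ (h1 (L.l n a) _ ((L.P n).single_mem ?_ 1))
  · rintro _ ⟨s, hs, rfl⟩
    exact ⟨_, ha (mem_singleton _), s, hs, rfl⟩
  · rw [smul_set_singleton, smul_eq_mul, mul_one]; exact Subset.rfl

/-- simplices to anything, after subdivision -/
theorem FD.sing_any (h : FD d G K₀) {B : Type} [MulAction G B] {Q : Sh G B} {n : ℕ}
    {F : Ch k n T →ₗ[k] (B →₀ k)} (he : Eqv G F) (hc : Ctl (h.shS n) Q F) :
    ∃ S : Set G, S.Finite ∧ ∀ A : Set T, ∀ c ∈ (On A).ch k n,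
      F (rh G K₀ k n c) ∈ Q.W k (shs G K₀ A * S) := by
  obtain ⟨S, hS, -, h1⟩ := hc.unif he h.nb_finite
  exact ⟨S, hS, fun A c hc => (h1 _ _ (h.small_le_Ws k A
    (Sml.rho_inf k FD.cvr_open (h.cvr_cover A) hc))).1⟩

theorem FD.ev_zero (h : FD d G K₀) {n : ℕ} {V : Set G} {K : Set T} {φ : Co k n T}
    (hφ : φ ∈ (On Kᶜ).van k k n) {c : Ch k n T} (hc : c ∈ (h.shS n).W k V)
    (hV : ∀ g ∈ V, g ∉ shs G K₀ K) : ev k φ c = 0 :=
  Sb.ev_eq_zero hφ (ch_mono (sat_sub_compl hV) (h.W_le_On k V hc))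

open Classical in
/-- a function with finite support as a finitely supported function -/
def toF {A : Type} (u : A → k) : A →₀ k :=
  if h : (Function.support u).Finite then Finsupp.ofSupportFinite u h else 0

theorem toF_apply {A : Type} {u : A → k} (h : (Function.support u).Finite) (a : A) :
    toF u a = u a := by rw [toF, dif_pos h]; rfl

theorem pr_toF {A : Type} {u : (A →₀ k) →ₗ[k] k}
    (h : (Function.support fun a => u (Finsupp.single a 1)).Finite) (c : A →₀ k) :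
    pr k (toF fun a => u (Finsupp.single a 1)) c = u c := by
  have : pr k (toF fun a => u (Finsupp.single a 1)) = u :=
    Finsupp.lhom_ext' fun a => LinearMap.ext_ring (by
      simp only [LinearMap.comp_apply, Finsupp.lsingle_apply]
      rw [pr_single, toF_apply h, one_mul])
  rw [this]

theorem pr_add {A : Type} (a b c : A →₀ k) : pr k (a + b) c = pr k a c + pr k b c := by
  rw [pr_comm, map_add, pr_comm a, pr_comm b]

theorem pr_smul {A : Type} (r : k) (a c : A →₀ k) : pr k (r • a) c = r • pr k a c := by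
  rw [pr_comm, map_smul, pr_comm a]

theorem pr_W (L : Lab G X) {n : ℕ} {U V : Set G} {a c : X n →₀ k} (ha : a ∈ (L.P n).W k U)
    (hc : c ∈ (L.P n).W k V) (hUV : ∀ g ∈ V, g ∉ U) : pr k a c = 0 :=
  pr_eq_zero fun x hx => by
    by_contra h0
    exact hUV _ (L.mem_W.1 hc x hx) (L.mem_W.1 ha x h0)

theorem exists_W_fin (L : Lab G X) {n : ℕ} {U : Set G} {a : X n →₀ k} (ha : a ∈ (L.P n).W k U) :
    ∃ V : Set G, V.Finite ∧ V ⊆ U ∧ a ∈ (L.P n).W k V :=
  ⟨L.l n '' a.support, a.support.finite_toSet.image _, by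
    rintro _ ⟨x, hx, rfl⟩; exact L.mem_W.1 ha x (by simpa using hx),
    L.mem_W.2 fun x hx => ⟨x, by simpa using hx, rfl⟩⟩

section maps

variable {R : FR G X} {L : Lab G X} {h : FD d G K₀}

/-- pull back of cochains to the cells -/
def gs (g : Mp (cell R k L) (h.sing k)) {n : ℕ} (φ : Co k n T) : X n →₀ k :=
  toF fun x => (ev k φ ∘ₗ g.f n) (Finsupp.single x 1)

/-- pull back of cellular cochains to the manifold -/
def fs (f : Mp (h.sing k) (cell R k L)) (n : ℕ) : (X n →₀ k) →ₗ[k] Co k n T where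
  toFun a σ := pr k a (f.f n (rh G K₀ k n (sg k σ)))
  map_add' a b := by funext σ; exact pr_add _ _ _
  map_smul' r a := by funext σ; exact pr_smul _ _ _

variable (f : Mp (h.sing k) (cell R k L)) (g : Mp (cell R k L) (h.sing k))

theorem ev_fs {n : ℕ} (a : X n →₀ k) (c : Ch k n T) :
    ev k (fs f n a) c = pr k a (f.f n (rh G K₀ k n c)) :=
  (map_eq_ev (pr k a ∘ₗ f.f n ∘ₗ rh G K₀ k n) c).symm

theorem cob_fs {n : ℕ} (a : X n →₀ k) : cob k (fs f n a) = fs f (n + 1) (bc k (R.de n) a) := by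
  funext σ
  rw [← ev_sg (k := k) (cob k (fs f n a)), ← ev_bd, ev_fs]
  show _ = pr k _ _
  rw [pr_de, rh, ← Sml.bd_rho]
  exact congrArg (pr k a) (f.ch n _).symm

theorem fs_van (n : ℕ) : ∃ S : Set G, S.Finite ∧ ∀ U : Set G, ∀ a ∈ (L.P n).W k U,
    fs f n a ∈ (On (sat (U * S) K₀)ᶜ).van k k n := by
  obtain ⟨S, hS, h1⟩ := h.sing_any (f.eqv n) (f.ctl n)
  refine ⟨S⁻¹, hS.inv, fun U a ha σ hσ => pr_W L ha (h1 _ _ (Sb.sg_mem hσ)) ?_⟩
  rintro _ ⟨x, hx, s, hs, rfl⟩ hU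
  exact shs_compl_sat _ hx ⟨_, hU, s⁻¹, by simpa using hs, by simp⟩

theorem gs_supp (n : ℕ) : ∃ S : Set G, S.Finite ∧ ∀ K : Set T, ∀ φ ∈ (On Kᶜ).van k k n, ∀ x : X n,
    (ev k φ ∘ₗ g.f n) (Finsupp.single x 1) ≠ 0 → L.l n x ∈ shs G K₀ K * S := by
  obtain ⟨S, hS, h1⟩ := h.cell_sing L (g.eqv n) (g.ctl n)
  refine ⟨S⁻¹, hS.inv, fun K φ hφ x hx => ?_⟩
  by_contra h0
  refine hx (h.ev_zero hφ (h1 {L.l n x} _ ((L.P n).single_mem Subset.rfl 1)) ?_)
  rintro _ ⟨_, rfl, s, hs, rfl⟩ h2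
  exact h0 ⟨_, h2, s⁻¹, by simpa using hs, by simp⟩

theorem gs_fin {n : ℕ} {K : Set T} (hK : IsCompact K) {φ : Co k n T} (hφ : φ ∈ (On Kᶜ).van k k n) :
    (Function.support fun x => (ev k φ ∘ₗ g.f n) (Finsupp.single x 1)).Finite := by
  obtain ⟨S, hS, h1⟩ := gs_supp g n
  exact (L.fin R n ((h.gm.shs_finite h.cpt hK).mul hS)).subset fun x hx => h1 K φ hφ x hx

theorem pr_gs {n : ℕ} {K : Set T} (hK : IsCompact K) {φ : Co k n T} (hφ : φ ∈ (On Kᶜ).van k k n)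
    (c : X n →₀ k) : pr k (gs g φ) c = ev k φ (g.f n c) := pr_toF (gs_fin g hK hφ) c

theorem gs_apply {n : ℕ} {K : Set T} (hK : IsCompact K) {φ : Co k n T} (hφ : φ ∈ (On Kᶜ).van k k n)
    (x : X n) : gs g φ x = ev k φ (g.f n (Finsupp.single x 1)) := toF_apply (gs_fin g hK hφ) x

theorem gs_mem (n : ℕ) : ∃ S : Set G, S.Finite ∧ ∀ K : Set T, IsCompact K →
    ∀ φ ∈ (On Kᶜ).van k k n, gs g φ ∈ (L.P n).W k (shs G K₀ K * S) := by
  obtain ⟨S, hS, h1⟩ := gs_supp g n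
  exact ⟨S, hS, fun K hK φ hφ => L.mem_W.2 fun x hx => h1 K φ hφ x (by rwa [gs_apply g hK hφ] at hx)⟩

theorem de_gs {n : ℕ} {K : Set T} (hK : IsCompact K) {φ : Co k n T} (hφ : φ ∈ (On Kᶜ).van k k n) :
    bc k (R.de n) (gs g φ) = gs g (cob k φ) :=
  eq_of_pr fun c => by
    rw [pr_de, pr_gs g hK hφ, pr_gs g hK (Sb.cob_mem hφ), ← ev_bd]
    exact congrArg (ev k φ) (g.ch n c).symm

theorem gs_zero (n : ℕ) : gs g (0 : Co k n T) = 0 :=
  eq_of_pr fun c => by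
    rw [pr_gs g isCompact_empty (Submodule.zero_mem _)]
    simp [pr, ev]

theorem gs_add {n : ℕ} {K : Set T} (hK : IsCompact K) {φ ψ : Co k n T} (hφ : φ ∈ (On Kᶜ).van k k n)
    (hψ : ψ ∈ (On Kᶜ).van k k n) : gs g (φ + ψ) = gs g φ + gs g ψ :=
  eq_of_pr fun c => by
    rw [pr_add, pr_gs g hK hφ, pr_gs g hK hψ, pr_gs g hK (add_mem hφ hψ), ev_add]

theorem gs_smul {n : ℕ} {K : Set T} (hK : IsCompact K) (r : k) {φ : Co k n T}
    (hφ : φ ∈ (On Kᶜ).van k k n) : gs g (r • φ) = r • gs g φ :=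
  eq_of_pr fun c => by
    rw [pr_smul, pr_gs g hK hφ, pr_gs g hK (Submodule.smul_mem _ r hφ), ev_smul]

variable {f g}

/-- a compactly supported cocycle is cohomologous to `fs (gs φ)`, with control -/
theorem decomp (H : Ht (g.comp f) (Mp.id (h.sing k))) (n : ℕ) : ∃ S : Set G, S.Finite ∧
    ∀ K : Set T, IsCompact K → ∀ φ ∈ (On Kᶜ).van k k (n + 1), cob k φ = 0 →
      ∃ η ∈ (On (K ∪ sat (shs G K₀ K * S) K₀)ᶜ).van k k n,
        φ = fs f (n + 1) (gs g φ) + cob k η := by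
  obtain ⟨S, hS, h1⟩ := h.sing_any (H.eqv n) (H.ctl n)
  refine ⟨S⁻¹, hS.inv, fun K hK φ hφ h0 => ?_⟩
  let E : Ch k n T →ₗ[k] k := ev k φ ∘ₗ (dh G K₀ k n - H.h n ∘ₗ rh G K₀ k n)
  refine ⟨fun σ => E (sg k σ), fun σ hσ => ?_, ?_⟩
  · have a1 : ev k φ (dh G K₀ k n (sg k σ)) = 0 := Sb.ev_eq_zero hφ (Sml.DD_mem k _ _
      (Sb.sg_mem (Subset.trans hσ (compl_subset_compl.2 subset_union_left))))
    have a2 : ev k φ (H.h n (rh G K₀ k n (sg k σ))) = 0 := by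
      refine h.ev_zero hφ (h1 _ _ (Sb.sg_mem
        (Subset.trans hσ (compl_subset_compl.2 subset_union_right)))) ?_
      rintro _ ⟨x, hx, s, hs, rfl⟩ hU
      exact shs_compl_sat _ hx ⟨_, hU, s⁻¹, by simpa using hs, by simp⟩
    show ev k φ (dh G K₀ k n (sg k σ) - H.h n (rh G K₀ k n (sg k σ))) = 0
    rw [map_sub, a1, a2, sub_zero]
  · funext σ
    have e1 : cob k (fun σ => E (sg k σ)) σ = E (bd k (sg k σ)) := by
      rw [← ev_sg (k := k) (cob k _), ← ev_bd, ← map_eq_ev]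
    have e2 : fs f (n + 1) (gs g φ) σ =
        ev k φ (g.f (n + 1) (f.f (n + 1) (rh G K₀ k (n + 1) (sg k σ)))) := pr_gs g hK hφ _
    have e3 := H.hs n (rh G K₀ k (n + 1) (sg k σ))
    have e4 : g.f (n + 1) (f.f (n + 1) (rh G K₀ k (n + 1) (sg k σ))) =
        bd k (H.h (n + 1) (rh G K₀ k (n + 1) (sg k σ))) +
          H.h n (rh G K₀ k n (bd k (sg k σ))) + rh G K₀ k (n + 1) (sg k σ) := by
      rw [rh, rh, ← Sml.bd_rho]
      exact (eq_sub_iff_add_eq.1 e3).symm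
    have e5 : ∀ c, ev k φ (bd k c) = 0 := fun c => by rw [ev_bd, h0, ev_zero]
    rw [Pi.add_apply, e1, e2, e4]
    show _ = _ + ev k φ (dh G K₀ k n (bd k (sg k σ)) - H.h n (rh G K₀ k n (bd k (sg k σ))))
    rw [map_add, map_add, e5, map_sub, rh, rh, Sml.rho_succ, map_sub, map_sub, e5, ev_sg, dh]
    ring

theorem decomp_zero (H : Ht (g.comp f) (Mp.id (h.sing k))) {K : Set T} (hK : IsCompact K)
    {φ : Co k 0 T} (hφ : φ ∈ (On Kᶜ).van k k 0) (h0 : cob k φ = 0) : φ = fs f 0 (gs g φ) := by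
  funext σ
  have e2 : fs f 0 (gs g φ) σ = ev k φ (g.f 0 (f.f 0 (sg k σ))) := pr_gs g hK hφ _
  have e4 : g.f 0 (f.f 0 (sg k σ)) = bd k (H.h 0 (sg k σ)) + sg k σ :=
    (eq_sub_iff_add_eq.1 (H.h0 (sg k σ))).symm
  rw [e2, e4, map_add, ev_bd, h0, ev_zero, ev_sg, zero_add]

/-- **relative killing**: if the cellular cocycles over `U * S` lie in `N` up to coboundaries over `U'`,
then the cocycles supported in `sat U K₀` lie in `fs N` up to coboundaries supported in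
`sat ((U ∪ U') * S) K₀` -/
theorem hc_rel (H : Ht (g.comp f) (Mp.id (h.sing k))) (n : ℕ) : ∃ S : Set G, S.Finite ∧ 1 ∈ S ∧
    ∀ (U U' : Set G) (N : Set (X (n + 1) →₀ k)),
      (∀ a ∈ (L.P (n + 1)).W k (U * S), bc k (R.de (n + 1)) a = 0 →
        ∃ a₀ ∈ N, ∃ b ∈ (L.P n).W k U', a = a₀ + bc k (R.de n) b) →
      ∀ K : Set T, IsCompact K → K ⊆ sat U K₀ → ∀ φ ∈ (On Kᶜ).van k k (n + 1), cob k φ = 0 →
        ∃ a₀ ∈ N, ∃ K' : Set T, IsCompact K' ∧ K' ⊆ sat ((U ∪ U') * S) K₀ ∧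
          ∃ ψ ∈ (On K'ᶜ).van k k n, φ = fs f (n + 1) a₀ + cob k ψ := by
  obtain ⟨S1, f1, h1⟩ := gs_mem g (n + 1)
  obtain ⟨S2, f2, h2⟩ := fs_van f n
  obtain ⟨S3, f3, h3⟩ := decomp H n
  let M := shs G K₀ K₀
  have fM : M.Finite := h.nb_finite
  refine ⟨{1} ∪ (M * S1 ∪ (S2 ∪ M * S3)), (finite_singleton 1).union
    ((fM.mul f1).union (f2.union (fM.mul f3))), Or.inl rfl, fun U U' N hk K hK hKU φ hφ h0 => ?_⟩
  have hs : shs G K₀ K ⊆ U * M := (shs_mono hKU).trans (shs_sat U K₀)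
  have fK := h.gm.shs_finite h.cpt hK
  obtain ⟨a₀, ha₀, b, hb, e⟩ := hk (gs g φ) ((L.P (n + 1)).W_mono (by
    refine (mul_subset_mul_right hs).trans ?_
    rw [mul_assoc]
    exact mul_subset_mul_left fun x hx => Or.inr (Or.inl hx)) (h1 K hK φ hφ))
    (by rw [de_gs g hK hφ, h0, gs_zero])
  obtain ⟨V, fV, hV, hb'⟩ := exists_W_fin L hb
  obtain ⟨η, hη, e'⟩ := h3 K hK φ hφ h0
  refine ⟨a₀, ha₀, (K ∪ sat (shs G K₀ K * S3) K₀) ∪ sat (V * S2) K₀,
    (hK.union (isCompact_sat (fK.mul f3) h.cpt)).union (isCompact_sat (fV.mul f2) h.cpt),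
    union_subset (union_subset (hKU.trans (sat_mono ?_ Subset.rfl)) (sat_mono ?_ Subset.rfl))
      (sat_mono ?_ Subset.rfl), fs f n b + η,
    add_mem (van_supp subset_union_right (h2 V b hb')) (van_supp subset_union_left hη), ?_⟩
  · exact fun x hx => ⟨x, Or.inl hx, 1, Or.inl rfl, mul_one x⟩
  · refine (mul_subset_mul_right hs).trans ?_
    rw [mul_assoc]
    exact mul_subset_mul subset_union_left fun x hx => Or.inr (Or.inr (Or.inr hx))
  · exact mul_subset_mul (hV.trans subset_union_right) fun x hx => Or.inr (Or.inr (Or.inl hx))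
  · rw [map_add, cob_fs, ← add_assoc, ← map_add, ← e]; exact e'

/-- **killing of compactly supported cohomology** -/
theorem hc_kill (H : Ht (g.comp f) (Mp.id (h.sing k))) (n : ℕ) : ∃ S : Set G, S.Finite ∧ 1 ∈ S ∧
    ∀ U U' : Set G, (∀ a ∈ (L.P (n + 1)).W k (U * S), bc k (R.de (n + 1)) a = 0 →
        ∃ b ∈ (L.P n).W k U', bc k (R.de n) b = a) →
      ∀ K : Set T, IsCompact K → K ⊆ sat U K₀ → ∀ φ ∈ (On Kᶜ).van k k (n + 1), cob k φ = 0 →
        ∀ V : Set T, sat ((U ∪ U') * S) K₀ ⊆ V → ∃ ψ ∈ Cc k V k n, cob k ψ = φ := by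
  obtain ⟨S, hS, h1, h2⟩ := hc_rel H n
  refine ⟨S, hS, h1, fun U U' hk K hK hKU φ hφ h0 V hV => ?_⟩
  obtain ⟨_, rfl, K', a1, a2, ψ, a3, a4⟩ := h2 U U' {0} (fun a ha h0 => by
    obtain ⟨b, hb, e⟩ := hk a ha h0
    exact ⟨0, rfl, b, hb, by rw [zero_add, e]⟩) K hK hKU φ hφ h0
  exact ⟨ψ, ⟨K', a1, a2.trans hV, a3⟩, by rw [a4, map_zero, zero_add]⟩

theorem hc_kill_zero (H : Ht (g.comp f) (Mp.id (h.sing k)))
    (hk : ∀ a : X 0 →₀ k, bc k (R.de 0) a = 0 → a = 0) {K : Set T} (hK : IsCompact K)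
    {φ : Co k 0 T} (hφ : φ ∈ (On Kᶜ).van k k 0) (h0 : cob k φ = 0) : φ = 0 := by
  rw [decomp_zero H hK hφ h0, hk (gs g φ) (by rw [de_gs g hK hφ, h0, gs_zero]), map_zero]

/-- **killing of homology** -/
theorem h_kill (H : Ht (g.comp f) (Mp.id (h.sing k))) (n : ℕ) : ∃ S : Set G, S.Finite ∧
    ∀ (A : Set T) (U' : Set G), (∀ a ∈ (L.P (n + 1)).W k (shs G K₀ A * S), bc k (R.d n) a = 0 →
        ∃ b ∈ (L.P (n + 2)).W k U', bc k (R.d (n + 1)) b = a) →
      (On A).ch k (n + 1) ⊓ cyc k T (n + 1) ≤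
        (On (A ∪ cor K₀ ((shs G K₀ A ∪ U') * S))).B k (n + 1) := by
  obtain ⟨S1, f1, h1⟩ := h.sing_any (f.eqv (n + 1)) (f.ctl (n + 1))
  obtain ⟨S2, f2, h2⟩ := h.cell_sing L (g.eqv (n + 2)) (g.ctl (n + 2))
  obtain ⟨S3, f3, h3⟩ := h.sing_any (H.eqv (n + 1)) (H.ctl (n + 1))
  refine ⟨S1 ∪ (S2 ∪ S3), f1.union (f2.union f3), fun A U' hk z hz => ?_⟩
  have z0 : bd k z = 0 := hz.2
  have r0 : bd k (rh G K₀ k (n + 1) z) = 0 := by rw [rh, Sml.bd_rho, z0, map_zero]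
  obtain ⟨b, hb, e⟩ := hk (f.f (n + 1) (rh G K₀ k (n + 1) z))
    ((L.P (n + 1)).W_mono (mul_subset_mul_left subset_union_left) (h1 A z hz.1))
    ((f.ch n _).trans (by rw [show (h.sing k).d n (rh G K₀ k (n + 1) z) = 0 from r0, map_zero]))
  have e3 := H.hs n (rh G K₀ k (n + 1) z)
  rw [show (h.sing k).d n (rh G K₀ k (n + 1) z) = 0 from r0, map_zero, add_zero] at e3
  have e4 : bd k (H.h (n + 1) (rh G K₀ k (n + 1) z)) =
      g.f (n + 1) (f.f (n + 1) (rh G K₀ k (n + 1) z)) - rh G K₀ k (n + 1) z := e3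
  have e5 : bd k (g.f (n + 2) b) = g.f (n + 1) (f.f (n + 1) (rh G K₀ k (n + 1) z)) :=
    (g.ch (n + 1) b).trans (congrArg (g.f (n + 1)) e)
  refine ⟨dh G K₀ k (n + 1) z + (g.f (n + 2) b - H.h (n + 1) (rh G K₀ k (n + 1) z)),
    add_mem (ch_mono subset_union_left (Sml.DD_mem k _ _ hz.1)) (sub_mem ?_ ?_), ?_⟩
  · have := h2 U' b hb
    rw [h.W_eq'] at this
    exact ch_mono ((cor_mono (mul_subset_mul subset_union_right
      (subset_union_left.trans subset_union_right))).trans subset_union_right) this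
  · have := h3 A z hz.1
    rw [show (h.sing k).P (n + 1 + 1) = h.shS (n + 1 + 1) from rfl, h.W_eq'] at this
    exact ch_mono ((cor_mono (mul_subset_mul subset_union_left
      (subset_union_right.trans subset_union_right))).trans subset_union_right) this
  · rw [map_add, map_sub, e4, e5, rh, Sml.rho_succ, z0, map_zero, dh]
    abel

end maps

end Crest.Agent.N255.Gs

end
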